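import Mathlib.Probability.Distributions.Gaussian.Multivariate
import Mathlib.MeasureTheory.Constructions.Pi
import Mathlib.Analysis.SpecialFunctions.PolarCoord
import Mathlib.MeasureTheory.Function.JacobianOneDim

/-! Gaussian integration tools for the memory lower bound. -/

namespace Vale.Agent.P309

open MeasureTheory ProbabilityTheory Real
open scoped ENNReal NNReal

/-- Standard normal law on the line. -/
noncomputable abbrev G1 : Measure ℝ := gaussianReal 0 1

/-- Standard normal density. -/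
noncomputable def pdf1 (t : ℝ) : ℝ := (√(2 * π))⁻¹ * Real.exp (-(t ^ 2) / 2)

lemma pdf1_nonneg (t : ℝ) : 0 ≤ pdf1 t := by unfold pdf1; positivity

lemma measurable_pdf1 : Measurable pdf1 := by unfold pdf1; fun_prop

lemma lintegral_G1 {f : ℝ → ℝ≥0∞} (hf : Measurable f) :
    ∫⁻ t, f t ∂G1 = ∫⁻ t, ENNReal.ofReal (pdf1 t) * f t := by
  rw [G1, gaussianReal_of_var_ne_zero 0 one_ne_zero,
    lintegral_withDensity_eq_lintegral_mul volume (measurable_gaussianPDF 0 1) hf]
  refine lintegral_congr fun t => ?_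
  simp [gaussianPDF_def, gaussianPDFReal_def, pdf1]

lemma lintegral_pi_succ {α : Type*} [MeasurableSpace α] {n : ℕ} (μ : Measure α) [SigmaFinite μ]
    {f : (Fin (n + 1) → α) → ℝ≥0∞}
    (hf : Measurable f) :
    ∫⁻ x, f x ∂Measure.pi (fun _ => μ)
      = ∫⁻ t, ∫⁻ y, f (Fin.cons t y) ∂Measure.pi (fun _ => μ) ∂μ := by
  have h := (measurePreserving_piFinSuccAbove (fun _ : Fin (n + 1) => μ) 0).symm
  have hm : Measurable fun a : α × (Fin n → α) =>
      f ((MeasurableEquiv.piFinSuccAbove (fun _ => α) 0).symm a) := hf.comp h.measurable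
  rw [← h.lintegral_comp hf, lintegral_prod _ hm.aemeasurable]
  simp [MeasurableEquiv.piFinSuccAbove_symm_apply]
  rfl

lemma lintegral_pi_prod {α : Type*} [MeasurableSpace α] (μ : Measure α) [SigmaFinite μ] :
    ∀ {n : ℕ} (g : Fin n → α → ℝ≥0∞),
    (∀ i, Measurable (g i)) →
    ∫⁻ x, ∏ i, g i (x i) ∂Measure.pi (fun _ => μ) = ∏ i, ∫⁻ t, g i t ∂μ
  | 0, g, _ => by simp
  | n + 1, g, hg => by
    have hm : Measurable fun x : Fin (n + 1) → α => ∏ i, g i (x i) :=
      Finset.measurable_prod _ fun i _ => (hg i).comp (measurable_pi_apply i)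
    rw [lintegral_pi_succ μ hm,
      Fin.prod_univ_succ (fun i => ∫⁻ t, g i t ∂μ)]
    simp only [Fin.prod_univ_succ (n := n), Fin.cons_zero, Fin.cons_succ]
    have ih := lintegral_pi_prod μ (fun i : Fin n => g i.succ) fun i => hg _
    have : Measurable fun y : Fin n → α => ∏ i : Fin n, g i.succ (y i) :=
      Finset.measurable_prod _ fun i _ => (hg _).comp (measurable_pi_apply i)
    simp_rw [lintegral_const_mul _ this, ih]
    rw [lintegral_mul_const _ (hg 0)]

lemma lintegral_pi_G1 : ∀ {n : ℕ} {f : (Fin n → ℝ) → ℝ≥0∞}, Measurable f →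
    ∫⁻ x, f x ∂Measure.pi (fun _ => G1)
      = ∫⁻ x, (∏ i, ENNReal.ofReal (pdf1 (x i))) * f x
  | 0, f, _ => by simp [lintegral_unique, volume_pi]
  | n + 1, f, hf => by
    have hp : Measurable fun x : Fin (n + 1) → ℝ => (∏ i, ENNReal.ofReal (pdf1 (x i))) * f x :=
      (Finset.measurable_prod _ fun i _ =>
        (measurable_pdf1.comp (measurable_pi_apply i)).ennreal_ofReal).mul hf
    have hc : Measurable fun p : ℝ × (Fin n → ℝ) => f (Fin.cons p.1 p.2) := by
      refine hf.comp (measurable_pi_lambda _ fun i => ?_)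
      cases i using Fin.cases with
      | zero => simpa using measurable_fst
      | succ j => simp only [Fin.cons_succ]; exact (measurable_pi_apply j).comp measurable_snd
    rw [lintegral_pi_succ G1 hf, lintegral_G1 (Measurable.lintegral_prod_right' hc), volume_pi,
      lintegral_pi_succ volume hp]
    refine lintegral_congr fun t => ?_
    have hy : Measurable fun y : Fin n → ℝ => f (Fin.cons t y) := hc.comp measurable_prodMk_left
    simp only
    rw [lintegral_pi_G1 hy, volume_pi, ← lintegral_const_mul']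
    · refine lintegral_congr fun y => ?_
      simp [Fin.prod_univ_succ, mul_assoc]
    · exact ENNReal.ofReal_ne_top

lemma prod_pdf1 {n : ℕ} (x : Fin n → ℝ) :
    ∏ i, pdf1 (x i) = (√(2 * π))⁻¹ ^ n * Real.exp (-(∑ i, (x i) ^ 2) / 2) := by
  simp [pdf1, Finset.prod_mul_distrib, ← Real.exp_sum, neg_div, Finset.sum_div]

/-- A radial integral over the plane against the normal law. -/
lemma lintegral_plane {φ : ℝ → ℝ≥0∞} (hφ : Measurable φ) :
    ∫⁻ u, ∫⁻ v, φ (u ^ 2 + v ^ 2) ∂G1 ∂G1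
      = ∫⁻ s in Set.Ioi (0:ℝ), ENNReal.ofReal (Real.exp (-s / 2) / 2) * φ s := by
  set w : ℝ → ℝ≥0∞ := fun s => ENNReal.ofReal (Real.exp (-s / 2) / (2 * π)) * φ s
  have hw : Measurable w := (Measurable.ennreal_ofReal (by fun_prop)).mul hφ
  have hwp : Measurable fun p : ℝ × ℝ => w (p.1 ^ 2 + p.2 ^ 2) := hw.comp (by fun_prop)
  have h1 : ∫⁻ u, ∫⁻ v, φ (u ^ 2 + v ^ 2) ∂G1 ∂G1 = ∫⁻ p : ℝ × ℝ, w (p.1 ^ 2 + p.2 ^ 2) := by
    rw [lintegral_G1 (Measurable.lintegral_prod_right' (f := fun p : ℝ × ℝ => φ (p.1 ^ 2 + p.2 ^ 2))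
      (hφ.comp (by fun_prop))),
      show (volume : Measure (ℝ × ℝ)) = volume.prod volume from rfl,
      lintegral_prod _ hwp.aemeasurable]
    refine lintegral_congr fun u => ?_
    simp only
    rw [lintegral_G1 (f := fun v => φ (u ^ 2 + v ^ 2)) (hφ.comp (by fun_prop)),
      ← lintegral_const_mul' _ _ ENNReal.ofReal_ne_top]
    refine lintegral_congr fun v => ?_
    rw [← mul_assoc, ← ENNReal.ofReal_mul (pdf1_nonneg u)]
    simp only [w]
    congr 2
    unfold pdf1
    rw [mul_mul_mul_comm, ← Real.exp_add, ← mul_inv, Real.mul_self_sqrt (by positivity)]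
    ring_nf
  have h2 : ∫⁻ p : ℝ × ℝ, w (p.1 ^ 2 + p.2 ^ 2)
      = ∫⁻ r in Set.Ioi (0:ℝ), ENNReal.ofReal (2 * π * r) * w (r ^ 2) := by
    rw [← lintegral_comp_polarCoord_symm fun p => w (p.1 ^ 2 + p.2 ^ 2)]
    simp only [polarCoord_target, polarCoord_symm_apply, smul_eq_mul]
    have e : ∀ p : ℝ × ℝ, (p.1 * Real.cos p.2) ^ 2 + (p.1 * Real.sin p.2) ^ 2 = p.1 ^ 2 := by
      intro p
      linear_combination p.1 ^ 2 * Real.sin_sq_add_cos_sq p.2
    simp_rw [e]
    have hpm : Measurable fun p : ℝ × ℝ => ENNReal.ofReal p.1 * w (p.1 ^ 2) :=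
      measurable_fst.ennreal_ofReal.mul (hw.comp (by fun_prop))
    rw [show (volume : Measure (ℝ × ℝ)) = volume.prod volume from rfl, ← Measure.prod_restrict,
      lintegral_prod _ hpm.aemeasurable]
    refine setLIntegral_congr_fun measurableSet_Ioi fun r hr => ?_
    rw [Set.mem_Ioi] at hr
    simp only [lintegral_const, Measure.restrict_apply_univ, Real.volume_Ioo]
    rw [mul_right_comm, ← ENNReal.ofReal_mul hr.le]
    ring_nf
  have himg : (fun r : ℝ => r ^ 2) '' Set.Ioi 0 = Set.Ioi 0 := by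
    ext s
    constructor
    · rintro ⟨r, hr, rfl⟩; exact pow_pos (Set.mem_Ioi.1 hr) 2
    · intro hs; exact ⟨√s, Real.sqrt_pos.2 hs, Real.sq_sqrt (le_of_lt hs)⟩
  have h3 := lintegral_image_eq_lintegral_abs_deriv_mul (s := Set.Ioi (0:ℝ))
    (f := fun r => r ^ 2) (f' := fun r => 2 * r) measurableSet_Ioi
    (fun r _ => by simpa using (hasDerivAt_pow 2 r).hasDerivWithinAt)
    (fun a ha b hb h => by
      have := congrArg Real.sqrt h
      rwa [Real.sqrt_sq (le_of_lt ha), Real.sqrt_sq (le_of_lt hb)] at this)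
    (fun s => ENNReal.ofReal (Real.exp (-s / 2) / 2) * φ s)
  rw [himg] at h3
  rw [h1, h2, h3]
  refine setLIntegral_congr_fun measurableSet_Ioi fun r hr => ?_
  rw [Set.mem_Ioi] at hr
  simp only [w]
  rw [← mul_assoc, ← mul_assoc, ← ENNReal.ofReal_mul (by positivity),
    ← ENNReal.ofReal_mul (abs_nonneg _), abs_of_pos (by positivity)]
  congr 2
  field_simp

end Vale.Agent.P309
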