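import Mathlib.Probability.Distributions.Gaussian.Multivariate
import Mathlib.Analysis.SpecialFunctions.Trigonometric.Inverse
import Mathlib.MeasureTheory.Integral.Bochner.Basic

/-! Learners with a finite state set on the stream of exact linear labels. -/

namespace Vale.Agent.P309

open MeasureTheory ProbabilityTheory
open scoped RealInnerProductSpace

/-- The uniform law on the unit sphere, as the law of a normalised standard normal vector. -/
noncomputable def sphereLaw (d : ℕ) : Measure (EuclideanSpace ℝ (Fin d)) :=
  (stdGaussian (EuclideanSpace ℝ (Fin d))).map fun g => ‖g‖⁻¹ • g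

/-- The law of the state after `t` samples, given the signal `s`. Here `step t w x y` is the
distribution of the next state when the state is `w` and the pair read is `(x, y)`. -/
noncomputable def stateLaw {d N : ℕ} (init : Fin N → ℝ)
    (step : ℕ → Fin N → EuclideanSpace ℝ (Fin d) → ℝ → Fin N → ℝ) :
    ℕ → EuclideanSpace ℝ (Fin d) → Fin N → ℝ
  | 0, _, v => init v
  | t + 1, s, v => ∑ w, stateLaw init step t s w
      * ∫ x, step t w x ⟪x, s⟫ v ∂stdGaussian (EuclideanSpace ℝ (Fin d))

/-- Probability that the output of the final state is within angle `ε` of the signal. -/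
noncomputable def successProb {d N : ℕ} (init : Fin N → ℝ)
    (step : ℕ → Fin N → EuclideanSpace ℝ (Fin d) → ℝ → Fin N → ℝ)
    (out : Fin N → Measure (EuclideanSpace ℝ (Fin d))) (T : ℕ) (ε : ℝ) : ℝ :=
  ∫ s, ∑ v, stateLaw init step T s v
    * (out v {o | ‖o‖ = 1 ∧ Real.arccos ⟪o, s⟫ ≤ ε}).toReal ∂sphereLaw d

end Vale.Agent.P309
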