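import Vale.Agent.P309.Phase
import Vale.Agent.P309.Defs
import Mathlib.Analysis.SpecialFunctions.Trigonometric.Bounds

/-! The dynamics, the iteration over phases and the final estimate. -/

namespace Vale.Agent.P309

open MeasureTheory ProbabilityTheory Real
open scoped ENNReal NNReal RealInnerProductSpace

variable {d N : ℕ}

/-- The law of the state, valued in the extended nonnegative reals. -/
noncomputable def law (π₀ : Fin N → ℝ≥0∞)
    (st : ℕ → Fin N → EuclideanSpace ℝ (Fin d) → ℝ → Fin N → ℝ≥0∞) :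
    ℕ → EuclideanSpace ℝ (Fin d) → Fin N → ℝ≥0∞
  | 0, _, v => π₀ v
  | t + 1, s, v => ∑ w, law π₀ st t s w * ∫⁻ x, st t w x ⟪x, s⟫ v ∂rowLaw d

/-- The kernel of a block of consecutive samples. -/
noncomputable def block (st : ℕ → Fin N → EuclideanSpace ℝ (Fin d) → ℝ → Fin N → ℝ≥0∞) :
    {j : ℕ} → ℕ → Fin N → (Fin j → EuclideanSpace ℝ (Fin d)) → (Fin j → ℝ) → Fin N → ℝ≥0∞
  | 0, _, w, _, _, v => if w = v then 1 else 0
  | _ + 1, a, w, X, y, v =>
      ∑ u, st a w (X 0) (y 0) u * block st (a + 1) u (Fin.tail X) (Fin.tail y) v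

variable {st : ℕ → Fin N → EuclideanSpace ℝ (Fin d) → ℝ → Fin N → ℝ≥0∞}

lemma measurable_block (hst : ∀ t w v, Measurable fun p : EuclideanSpace ℝ (Fin d) × ℝ =>
    st t w p.1 p.2 v) : ∀ {j : ℕ} (a : ℕ) (w v : Fin N),
    Measurable fun p : (Fin j → EuclideanSpace ℝ (Fin d)) × (Fin j → ℝ) => block st a w p.1 p.2 v
  | 0, a, w, v => by simp only [block]; exact measurable_const
  | j + 1, a, w, v => by
    simp only [block]
    refine Finset.measurable_sum _ fun u _ => ?_
    have h1 := (hst a w u).comp (((measurable_pi_apply (0 : Fin (j + 1))).comp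
      (measurable_fst (α := Fin (j + 1) → EuclideanSpace ℝ (Fin d)) (β := Fin (j + 1) → ℝ))).prodMk
        ((measurable_pi_apply (0 : Fin (j + 1))).comp measurable_snd))
    have h2 := (measurable_block hst (j := j) (a + 1) u v).comp
      ((measurable_tail.comp
        (measurable_fst (α := Fin (j + 1) → EuclideanSpace ℝ (Fin d)) (β := Fin (j + 1) → ℝ))).prodMk
        (measurable_tail.comp measurable_snd))
    exact h1.mul h2

lemma block_sum_le (h1 : ∀ t w x y, ∑ v, st t w x y v ≤ 1) : ∀ {j : ℕ} (a : ℕ) (w : Fin N)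
    (X : Fin j → EuclideanSpace ℝ (Fin d)) (y : Fin j → ℝ), ∑ v, block st a w X y v ≤ 1
  | 0, a, w, X, y => by simp [block]
  | j + 1, a, w, X, y => by
    simp only [block]
    rw [Finset.sum_comm]
    refine le_trans (Finset.sum_le_sum fun u _ => ?_) (h1 a w (X 0) (y 0))
    rw [← Finset.mul_sum]
    exact mul_le_of_le_one_right' (block_sum_le h1 _ _ _ _)

lemma law_add (hst : ∀ t w v, Measurable fun p : EuclideanSpace ℝ (Fin d) × ℝ => st t w p.1 p.2 v)
    (π₀ : Fin N → ℝ≥0∞) : ∀ (j a : ℕ) (s : EuclideanSpace ℝ (Fin d)) (v : Fin N),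
    law π₀ st (a + j) s v = ∑ w, law π₀ st a s w
      * ∫⁻ X, block st a w X (labels X s) v ∂Measure.pi (fun _ : Fin j => rowLaw d)
  | 0, a, s, v => by simp [block]
  | j + 1, a, s, v => by
    have hm : ∀ w, Measurable fun X : Fin (j + 1) → EuclideanSpace ℝ (Fin d) =>
        block st a w X (labels X s) v := fun w => by
      have h := (measurable_block hst (j := j + 1) a w v).comp
        (measurable_id.prodMk (measurable_labels.comp measurable_prodMk_right) :
          Measurable fun X : Fin (j + 1) → EuclideanSpace ℝ (Fin d) => (X, labels X s))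
      exact h
    have hone : ∀ w, ∫⁻ X, block st a w X (labels X s) v ∂Measure.pi (fun _ : Fin (j + 1) => rowLaw d)
        = ∑ u, (∫⁻ x, st a w x ⟪x, s⟫ u ∂rowLaw d)
          * ∫⁻ X, block st (a + 1) u X (labels X s) v ∂Measure.pi (fun _ : Fin j => rowLaw d) := by
      intro w
      rw [lintegral_pi_succ _ (hm w)]
      have hb : ∀ u, Measurable fun X : Fin j → EuclideanSpace ℝ (Fin d) =>
          block st (a + 1) u X (labels X s) v := fun u => by
        have h := (measurable_block hst (j := j) (a + 1) u v).comp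
          (measurable_id.prodMk (measurable_labels.comp measurable_prodMk_right) :
            Measurable fun X : Fin j → EuclideanSpace ℝ (Fin d) => (X, labels X s))
        exact h
      have hx : ∀ u, Measurable fun x => st a w x ⟪x, s⟫ u := fun u => by
        have h := (hst a w u).comp
          (measurable_id.prodMk (by fun_prop) :
            Measurable fun x : EuclideanSpace ℝ (Fin d) => (x, ⟪x, s⟫))
        exact h
      have hlab : ∀ x (X : Fin j → EuclideanSpace ℝ (Fin d)),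
          Fin.tail (labels (Fin.cons x X) s) = labels X s := fun x X => by
        funext i; simp [Fin.tail, labels]
      simp only [block, Fin.cons_zero, Fin.tail_cons, hlab]
      simp only [show ∀ x (X : Fin j → EuclideanSpace ℝ (Fin d)),
        labels (Fin.cons x X) s 0 = ⟪x, s⟫ from fun x X => by simp [labels]]
      simp only [lintegral_finsetSum _ fun u _ => (hb u).const_mul _, lintegral_const_mul _ (hb _)]
      rw [lintegral_finsetSum _ fun u _ => (hx u).mul_const _]
      exact Finset.sum_congr rfl fun u _ => lintegral_mul_const _ (hx u)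
    simp only [hone]
    rw [show a + (j + 1) = a + 1 + j by omega, law_add hst π₀ j (a + 1) s v]
    simp only [law, Finset.mul_sum, Finset.sum_mul]
    rw [Finset.sum_comm]
    refine Finset.sum_congr rfl fun w _ => Finset.sum_congr rfl fun u _ => ?_
    ring

lemma law_sum_le (hst : ∀ t w v, Measurable fun p : EuclideanSpace ℝ (Fin d) × ℝ => st t w p.1 p.2 v)
    (h1 : ∀ t w x y, ∑ v, st t w x y v ≤ 1) {π₀ : Fin N → ℝ≥0∞} (hπ : ∑ v, π₀ v ≤ 1) :
    ∀ t s, ∑ v, law π₀ st t s v ≤ 1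
  | 0, s => hπ
  | t + 1, s => by
    simp only [law]
    rw [Finset.sum_comm]
    refine le_trans (Finset.sum_le_sum fun w _ => ?_) (law_sum_le hst h1 hπ t s)
    rw [← Finset.mul_sum, ← lintegral_finsetSum]
    · exact mul_le_of_le_one_right' (le_trans (lintegral_mono fun x => h1 t w x _) (by simp))
    · intro u _
      have h := (hst t w u).comp
        (measurable_id.prodMk (by fun_prop) :
          Measurable fun x : EuclideanSpace ℝ (Fin d) => (x, ⟪x, s⟫))
      exact h

lemma measurable_law (hst : ∀ t w v, Measurable fun p : EuclideanSpace ℝ (Fin d) × ℝ =>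
    st t w p.1 p.2 v) (π₀ : Fin N → ℝ≥0∞) : ∀ t v, Measurable fun s => law π₀ st t s v
  | 0, v => by simp only [law]; exact measurable_const
  | t + 1, v => by
    simp only [law]
    refine Finset.measurable_sum _ fun w _ => (measurable_law hst π₀ t w).mul ?_
    have h := (hst t w v).comp
      (measurable_snd.prodMk (by fun_prop) : Measurable fun p : EuclideanSpace ℝ (Fin d) ×
        EuclideanSpace ℝ (Fin d) => (p.2, ⟪p.2, p.1⟫))
    have h' := Measurable.lintegral_prod_right' (ν := rowLaw d) h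
    exact h'

/-- The iteration over `K` phases. -/
theorem phases {m k : ℕ} (hm : 0 < m) (hk : k + k ≤ m) (hN : 1 ≤ N)
    {st : ℕ → Fin N → EuclideanSpace ℝ (Fin (m + 2)) → ℝ → Fin N → ℝ≥0∞}
    (hst : ∀ t w v, Measurable fun p : EuclideanSpace ℝ (Fin (m + 2)) × ℝ => st t w p.1 p.2 v)
    (h1 : ∀ t w x y, ∑ v, st t w x y v ≤ 1) {π₀ : Fin N → ℝ≥0∞} (hπ : ∑ v, π₀ v ≤ 1)
    {t : ℝ≥0∞} (ht : t ≠ ⊤)
    (hbad : (N:ℝ≥0∞) ^ 2 * Measure.pi (fun _ : Fin (k + k) => rowLaw (m + 2)) {Z | t < jac Z} ≤ 1)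
    {B V' R : ℝ} (hR : 1 ≤ R)
    (hc : ENNReal.ofReal (2 * 3 ^ (m + 2) * (√((m:ℝ) + 2) / √(2 * π)) ^ (k + k)) * t
            * volume (window k) + 1 ≤ ENNReal.ofReal B)
    (hV : volume (window k) + 1 ≤ ENNReal.ofReal V') (hB : 1 ≤ B) (hV1 : 1 ≤ V') :
    ∀ j, ∃ π₁ : Fin N → ℝ≥0∞, (∑ v, π₁ v ≤ 1) ∧
      ∫⁻ g, ∑ v, (law π₀ st (j * k) (‖g‖⁻¹ • g) v
          - ENNReal.ofReal ((R * B * V') ^ (2 ^ j - 1)) * π₁ v) ∂rowLaw (m + 2)
        ≤ ENNReal.ofReal (j * ((3/4) ^ k + R⁻¹))
  | 0 => ⟨π₀, hπ, by simp [law]⟩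
  | j + 1 => by
    obtain ⟨π₁, hπ₁, hex⟩ := phases hm hk hN hst h1 hπ ht hbad hR hc hV hB hV1 j
    set A : ℝ := R * B * V'
    have hA : 1 ≤ A := by
      have : 1 ≤ R * B := one_le_mul_of_one_le_of_one_le hR hB
      exact one_le_mul_of_one_le_of_one_le this hV1
    set Λ : ℝ := A ^ (2 ^ j - 1)
    have hΛ : 0 < Λ := pow_pos (by linarith) _
    have hlamp : 0 < Λ * (R * B) := by positivity
    obtain ⟨π₂, hπ₂, hstep⟩ := phase_step hm hk hN
      (fun w => measurable_law hst π₀ (j * k) w)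
      (fun g => law_sum_le hst h1 hπ (j * k) _) hπ₁
      (fun w v => measurable_block hst (j := k) (j * k) w v)
      (fun w X y => block_sum_le h1 (j * k) w X y) (Λ := ENNReal.ofReal Λ)
      (lam := ENNReal.ofReal (Λ * (R * B))) (t := t)
      (ne_of_gt (ENNReal.ofReal_pos.2 hlamp)) ENNReal.ofReal_ne_top ENNReal.ofReal_ne_top ht hbad
    refine ⟨π₂, hπ₂, ?_⟩
    rw [show (j + 1) * k = j * k + k by ring]
    simp only [law_add hst π₀ k (j * k)]
    refine le_trans (lintegral_mono fun g => Finset.sum_le_sum fun v _ => ?_) (hstep.trans ?_)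
    · refine tsub_le_tsub_left (mul_le_mul_left ?_ _) _
      calc ENNReal.ofReal Λ * ENNReal.ofReal (Λ * (R * B)) * (volume (window k) + 1)
          ≤ ENNReal.ofReal Λ * ENNReal.ofReal (Λ * (R * B)) * ENNReal.ofReal V' := by gcongr
        _ = _ := by
          rw [← ENNReal.ofReal_mul hΛ.le, ← ENNReal.ofReal_mul (by positivity)]
          congr 1
          have h2 : 2 ^ (j + 1) - 1 = (2 ^ j - 1) + (2 ^ j - 1) + 1 := by
            have := Nat.one_le_two_pow (n := j)
            rw [pow_succ]; omega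
          rw [h2, pow_add, pow_add, pow_one]
          ring
    · have hB0 : ENNReal.ofReal Λ / ENNReal.ofReal (Λ * (R * B))
          * ENNReal.ofReal B = ENNReal.ofReal R⁻¹ := by
        rw [← ENNReal.ofReal_div_of_pos hlamp, ← ENNReal.ofReal_mul (by positivity)]
        congr 1
        field_simp
      refine le_trans (add_le_add (add_le_add hex le_rfl)
        ((mul_le_mul_right hc _).trans hB0.le)) ?_
      rw [← ENNReal.ofReal_add (by positivity) (by positivity),
        ← ENNReal.ofReal_add (by positivity) (by positivity)]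
      refine le_of_eq (congrArg _ ?_)
      push_cast
      ring

/-- Chordal distance is at most the angle. -/
lemma norm_sub_le_of_arccos {o g : EuclideanSpace ℝ (Fin d)} {ε : ℝ} (hε : ε < 1) (ho : ‖o‖ = 1)
    (h : Real.arccos ⟪o, ‖g‖⁻¹ • g⟫ ≤ ε) : ‖o - ‖g‖⁻¹ • g‖ ≤ ε := by
  rcases eq_or_ne g 0 with rfl | hg
  · rw [smul_zero, inner_zero_right, Real.arccos_zero] at h
    linarith [Real.two_le_pi]
  set s := ‖g‖⁻¹ • g
  have hs : ‖s‖ = 1 := by simp [s, norm_smul, hg]
  have hab := abs_real_inner_le_norm o s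
  rw [ho, hs, one_mul, abs_le] at hab
  set θ := Real.arccos ⟪o, s⟫
  have hθ : 0 ≤ θ := Real.arccos_nonneg _
  have hcos : Real.cos θ = ⟪o, s⟫ := Real.cos_arccos hab.1 hab.2
  have h2 : ‖o - s‖ ^ 2 ≤ θ ^ 2 := by
    rw [norm_sub_sq_real, ho, hs, ← hcos]
    linarith [Real.one_sub_sq_div_two_le_cos (x := θ)]
  exact (pow_le_pow_iff_left₀ (norm_nonneg _) hθ two_ne_zero).1 h2 |>.trans h

/-- From a density bound on the final state law to a bound on the success probability. -/
theorem success_le {m : ℕ} (hm : 2 ≤ m) {q : EuclideanSpace ℝ (Fin (m + 2)) → Fin N → ℝ≥0∞}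
    {π₁ : Fin N → ℝ≥0∞} (hπ : ∑ v, π₁ v ≤ 1) (Λ : ℝ≥0∞)
    (out : Fin N → Measure (EuclideanSpace ℝ (Fin (m + 2)))) [∀ v, IsProbabilityMeasure (out v)]
    {ε : ℝ} (hε : 0 < ε) (hq : ∀ v, Measurable fun s => q s v) :
    ∫⁻ g, ∑ v, q (‖g‖⁻¹ • g) v * out v {o | ‖o - ‖g‖⁻¹ • g‖ ≤ ε} ∂rowLaw (m + 2)
      ≤ (∫⁻ g, ∑ v, (q (‖g‖⁻¹ • g) v - Λ * π₁ v) ∂rowLaw (m + 2))
        + Λ * ENNReal.ofReal (2 * 3 ^ (m + 2) * (3 * ε) ^ m) := by
  classical
  have hnorm : Measurable fun g : EuclideanSpace ℝ (Fin (m + 2)) => ‖g‖⁻¹ • g := by fun_prop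
  set S : Set (EuclideanSpace ℝ (Fin (m + 2)) × EuclideanSpace ℝ (Fin (m + 2))) :=
    {p | ‖p.2 - ‖p.1‖⁻¹ • p.1‖ ≤ ε}
  have hS : MeasurableSet S :=
    measurableSet_le (measurable_norm.comp (measurable_snd.sub (hnorm.comp measurable_fst)))
      measurable_const
  have hmo : ∀ v, Measurable fun g => out v (Prod.mk g ⁻¹' S) := fun v =>
    measurable_measure_prodMk_left hS
  have hcap : ∀ v, ∫⁻ g, out v (Prod.mk g ⁻¹' S) ∂rowLaw (m + 2)
      ≤ ENNReal.ofReal (2 * 3 ^ (m + 2) * (3 * ε) ^ m) := by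
    intro v
    rw [← Measure.prod_apply hS, Measure.prod_apply_symm hS]
    refine le_trans (lintegral_mono (g := fun _ => ENNReal.ofReal (2 * 3 ^ (m + 2) * (3 * ε) ^ m))
      fun o => ?_) (by simp)
    refine le_trans (le_of_eq ?_) (cap_le hm o hε)
    have ho : MeasurableSet ((fun g => (g, o)) ⁻¹' S) := measurable_prodMk_right hS
    rw [← lintegral_indicator_one ho]
    refine lintegral_congr fun g => ?_
    simp only [Set.indicator_apply, Set.mem_preimage, S, Set.mem_ofPred_eq, Pi.one_apply]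
  have hpre : ∀ g, {o | ‖o - ‖g‖⁻¹ • g‖ ≤ ε} = Prod.mk g ⁻¹' S := fun g => rfl
  simp only [hpre]
  calc _ ≤ ∫⁻ g, ((∑ v, (q (‖g‖⁻¹ • g) v - Λ * π₁ v))
        + ∑ v, Λ * π₁ v * out v (Prod.mk g ⁻¹' S)) ∂rowLaw (m + 2) := by
        refine lintegral_mono fun g => ?_
        simp only
        rw [← Finset.sum_add_distrib]
        refine Finset.sum_le_sum fun v _ => ?_
        refine le_trans (mul_le_mul_left (le_tsub_add (b := q (‖g‖⁻¹ • g) v) (a := Λ * π₁ v)) _) ?_
        rw [add_mul]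
        exact add_le_add (mul_le_of_le_one_right' prob_le_one) le_rfl
    _ ≤ _ := by
        have hE : Measurable fun g => ∑ v, (q (‖g‖⁻¹ • g) v - Λ * π₁ v) :=
          Finset.measurable_sum _ fun v _ => ((hq v).comp hnorm).sub_const _
        rw [lintegral_add_left hE, lintegral_finsetSum _ fun v _ => (hmo v).const_mul _]
        gcongr
        simp only [lintegral_const_mul _ (hmo _)]
        calc _ ≤ ∑ v, Λ * π₁ v * ENNReal.ofReal (2 * 3 ^ (m + 2) * (3 * ε) ^ m) :=
              Finset.sum_le_sum fun v _ => mul_le_mul_right (hcap v) _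
          _ ≤ _ := by
              rw [← Finset.sum_mul, ← Finset.mul_sum]
              exact mul_le_mul_left (mul_le_of_le_one_right' hπ) _

/-- The tail bound for the inverse volume. -/
lemma bad_le {m k r : ℕ} (hr : 1 ≤ r) (hd : k + k + 2 * r ≤ m + 2) {u : ℝ} (hu : 0 < u)
    (hN : (N:ℝ) ^ 2 ≤ u ^ r) :
    (N:ℝ≥0∞) ^ 2 * Measure.pi (fun _ : Fin (k + k) => rowLaw (m + 2))
      {Z | ENNReal.ofReal ((9 / √(2 * r)) ^ (k + k) * u) < jac Z} ≤ 1 := by
  set P := Measure.pi (fun _ : Fin (k + k) => rowLaw (m + 2))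
  set b : ℝ := (9 / √(2 * r)) ^ (k + k)
  have hb : 0 < b := by
    have : (0:ℝ) < r := by exact_mod_cast hr
    positivity
  set t : ℝ≥0∞ := ENNReal.ofReal (b * u)
  have h1 := mul_meas_ge_le_lintegral₀ (μ := P)
    ((measurable_jac (d := m + 2) (n := k + k)).pow_const r).aemeasurable (t ^ r)
  have h2 : P {Z | t < jac Z} ≤ P {Z | t ^ r ≤ jac Z ^ r} :=
    measure_mono fun Z (hZ : t < jac Z) => pow_le_pow_left₀ zero_le hZ.le r
  have h3 : t ^ r * P {Z | t < jac Z} ≤ ENNReal.ofReal b ^ r := by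
    refine ((mul_le_mul_right h2 _).trans h1).trans ((lintegral_jac hr hd).trans (le_of_eq ?_))
    rw [← ENNReal.ofReal_pow (by positivity), ← ENNReal.ofReal_pow hb.le]
    congr 1
    rw [← pow_mul, ← pow_mul, mul_comm (k + k) r]
  have h4 : ENNReal.ofReal u ^ r * P {Z | t < jac Z} ≤ 1 := by
    have hb0 : ENNReal.ofReal b ^ r ≠ 0 := pow_ne_zero _ (ne_of_gt (ENNReal.ofReal_pos.2 hb))
    refine (ENNReal.mul_le_mul_iff_right hb0 (ENNReal.pow_ne_top ENNReal.ofReal_ne_top)).1 ?_
    rw [mul_one, ← mul_assoc, ← mul_pow, ← ENNReal.ofReal_mul hb.le]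
    exact h3
  refine le_trans (mul_le_mul_left ?_ _) h4
  rw [← ENNReal.ofReal_pow hu.le, ← ENNReal.ofReal_natCast, ← ENNReal.ofReal_pow (Nat.cast_nonneg N)]
  exact ENNReal.ofReal_le_ofReal hN

lemma law_padded {T : ℕ} (π₀ : Fin N → ℝ≥0∞)
    (hid : ∀ t, T ≤ t → ∀ w x y v, st t w x y v = if w = v then 1 else 0) :
    ∀ t, T ≤ t → ∀ s v, law π₀ st t s v = law π₀ st T s v := by
  intro t ht
  induction t, ht using Nat.le_induction with
  | base => intro s v; rfl
  | succ t ht ih =>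
    intro s v
    simp only [law, hid t ht, lintegral_const, measure_univ, mul_one]
    rw [← ih s v]
    simp

end Vale.Agent.P309
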