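import Vale.Agent.P309.Sphere

/-! Density bound and moment bound for the linear image of the standard normal law. -/

namespace Vale.Agent.P309

open MeasureTheory ProbabilityTheory Real
open scoped ENNReal NNReal RealInnerProductSpace

/-- Distance of a vector to the span of finitely many vectors, through rational combinations. -/
noncomputable def spanDist {d n : ℕ} (x : EuclideanSpace ℝ (Fin d))
    (Y : Fin n → EuclideanSpace ℝ (Fin d)) : ℝ≥0∞ :=
  ⨅ c : Fin n → ℚ, ‖x - ∑ i, (c i : ℝ) • Y i‖ₑ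

/-- Product of the inverse successive distances, the inverse volume of the rows. -/
noncomputable def jac {d : ℕ} : {n : ℕ} → (Fin n → EuclideanSpace ℝ (Fin d)) → ℝ≥0∞
  | 0, _ => 1
  | _ + 1, X => (spanDist (X 0) (Fin.tail X))⁻¹ * jac (Fin.tail X)

lemma measurable_tail {α : Type*} [MeasurableSpace α] {n : ℕ} :
    Measurable (Fin.tail : (Fin (n + 1) → α) → (Fin n → α)) :=
  measurable_pi_lambda _ fun i => measurable_pi_apply i.succ

lemma measurable_spanDist {d n : ℕ} : Measurable
    fun p : EuclideanSpace ℝ (Fin d) × (Fin n → EuclideanSpace ℝ (Fin d)) => spanDist p.1 p.2 := by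
  unfold spanDist
  exact Measurable.iInf fun c => by fun_prop

lemma measurable_jac {d : ℕ} : ∀ {n : ℕ},
    Measurable (jac : (Fin n → EuclideanSpace ℝ (Fin d)) → ℝ≥0∞)
  | 0 => measurable_const
  | n + 1 => by
    exact (measurable_spanDist.comp ((measurable_pi_apply 0).prodMk measurable_tail)).inv.mul
      (measurable_jac.comp measurable_tail)

lemma spanDist_eq {d n : ℕ} (x : EuclideanSpace ℝ (Fin d))
    (Y : Fin n → EuclideanSpace ℝ (Fin d)) :
    spanDist x Y = ENNReal.ofReal ‖x - (Submodule.span ℝ (Set.range Y)).starProjection x‖ := by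
  set K := Submodule.span ℝ (Set.range Y)
  rw [ofReal_norm]
  refine le_antisymm ?_ (le_iInf fun c => ?_)
  · obtain ⟨c₀, hc₀⟩ := Submodule.mem_span_range_iff_exists_fun ℝ |>.1
      (K.starProjection_apply_mem x)
    by_contra hlt
    rw [not_le] at hlt
    set U : Set (Fin n → ℝ) := {c | ‖x - ∑ i, c i • Y i‖ₑ < spanDist x Y}
    have hU : IsOpen U := isOpen_lt (by fun_prop) continuous_const
    have hd : DenseRange (fun q : Fin n → ℚ => fun i => (q i : ℝ)) :=
      DenseRange.piMap fun _ => Rat.denseRange_cast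
    obtain ⟨q, hq⟩ := hd.exists_mem_open hU ⟨c₀, by simp only [U, Set.mem_ofPred_eq, hc₀]; exact hlt⟩
    have h2 : spanDist x Y ≤ ‖x - ∑ i, (q i : ℝ) • Y i‖ₑ := iInf_le _ q
    exact absurd (show ‖x - ∑ i, (q i : ℝ) • Y i‖ₑ < spanDist x Y from hq) (not_lt.2 h2)
  · rw [← ofReal_norm, ← ofReal_norm]
    refine ENNReal.ofReal_le_ofReal ?_
    rw [K.starProjection_minimal]
    exact ciInf_le ⟨0, by rintro _ ⟨y, rfl⟩; positivity⟩
      (⟨_, Submodule.sum_mem _ fun i _ => Submodule.smul_mem _ _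
        (Submodule.subset_span ⟨i, rfl⟩)⟩ : K)

lemma jac_ne_zero {d : ℕ} : ∀ {n : ℕ} (X : Fin n → EuclideanSpace ℝ (Fin d)), jac X ≠ 0
  | 0, _ => one_ne_zero
  | n + 1, X => mul_ne_zero (by simp [spanDist_eq]) (jac_ne_zero _)

/-- Resampling the coordinate along a unit vector preserves the standard normal law. -/
lemma lintegral_split {n : ℕ} {e : EuclideanSpace ℝ (Fin (n + 1))} (he : ‖e‖ = 1)
    {F : EuclideanSpace ℝ (Fin (n + 1)) → ℝ≥0∞} (hF : Measurable F) :
    ∫⁻ g, F g ∂stdGaussian (EuclideanSpace ℝ (Fin (n + 1)))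
      = ∫⁻ g, ∫⁻ t, F (g - ⟪e, g⟫ • e + t • e) ∂G1
        ∂stdGaussian (EuclideanSpace ℝ (Fin (n + 1))) := by
  classical
  set v : Fin (n + 1) → EuclideanSpace ℝ (Fin (n + 1)) := fun _ => e
  have hv : Orthonormal ℝ (({0} : Set (Fin (n + 1))).domRestrict v) := by
    rw [orthonormal_iff_ite]
    rintro ⟨i, rfl⟩ ⟨j, rfl⟩
    simp [Set.domRestrict, v, he]
  obtain ⟨b, hb⟩ := hv.exists_orthonormalBasis_extension_of_card_eq (by simp) (v := v)
  have hb0 : b 0 = e := hb 0 rfl
  set L : (Fin n → ℝ) → EuclideanSpace ℝ (Fin (n + 1)) := fun y => ∑ i, y i • b i.succ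
  have hP : Measurable fun x : Fin (n + 1) → ℝ => ∑ i, x i • b i := by fun_prop
  have hcons : ∀ u y, ∑ i, (Fin.cons u y : Fin (n + 1) → ℝ) i • b i = L y + u • e := by
    intro u y
    simp [Fin.sum_univ_succ, hb0, L, add_comm]
  have hL : ∀ y, ⟪e, L y⟫ = 0 := by
    intro y
    simp [L, inner_sum, inner_smul_right, ← hb0, b.orthonormal.inner_eq_zero (Fin.succ_ne_zero _).symm]
  have hm : Measurable fun g => ∫⁻ t, F (g - ⟪e, g⟫ • e + t • e) ∂G1 :=
    Measurable.lintegral_prod_right' (f := fun p : EuclideanSpace ℝ (Fin (n + 1)) × ℝ =>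
      F (p.1 - ⟪e, p.1⟫ • e + p.2 • e)) (hF.comp (by fun_prop))
  have hFL : Measurable fun p : ℝ × (Fin n → ℝ) => F (L p.2 + p.1 • e) := hF.comp (by fun_prop)
  rw [stdGaussian_eq_map_pi_orthonormalBasis b, lintegral_map hF hP, lintegral_map hm hP,
    lintegral_pi_succ G1 (f := fun x => F (∑ i, x i • b i)) (hF.comp hP),
    lintegral_pi_succ G1 (f := fun x => ∫⁻ t, F ((∑ i, x i • b i)
      - ⟪e, ∑ i, x i • b i⟫ • e + t • e) ∂G1) (hm.comp hP)]
  simp only [hcons]
  have : ∀ (u : ℝ) y, L y + u • e - ⟪e, L y + u • e⟫ • e = L y := by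
    intro u y
    simp [inner_add_right, hL, inner_smul_right, real_inner_self_eq_norm_sq, he]
  simp only [this, lintegral_const, measure_univ, mul_one]
  exact lintegral_lintegral_swap hFL.aemeasurable

lemma lintegral_affine {δ : ℝ} (hδ : 0 < δ) (c : ℝ) {f : ℝ → ℝ≥0∞} (hf : Measurable f) :
    ∫⁻ t, f (c + t * δ) = ENNReal.ofReal δ⁻¹ * ∫⁻ s, f s := by
  have h := Real.map_volume_mul_right hδ.ne'
  have hg : Measurable fun u => f (c + u) := hf.comp (by fun_prop)
  rw [← lintegral_map (f := fun u => f (c + u)) (g := fun t : ℝ => t * δ) hg (by fun_prop)]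
  rw [h, lintegral_smul_measure, lintegral_add_left_eq_self, smul_eq_mul,
    abs_of_pos (inv_pos.2 hδ)]

/-- The normal law seen through independent rows has density at most the inverse volume. -/
theorem lawBound {d : ℕ} : ∀ {n : ℕ} (X : Fin n → EuclideanSpace ℝ (Fin (d + 1)))
    {F : (Fin n → ℝ) → ℝ≥0∞}, Measurable F → jac X ≠ ⊤ →
    ∫⁻ g, F (fun i => ⟪X i, g⟫) ∂stdGaussian (EuclideanSpace ℝ (Fin (d + 1)))
      ≤ ENNReal.ofReal (√(2 * π))⁻¹ ^ n * jac X * ∫⁻ y, F y
  | 0, X, F, _, _ => by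
    have e : ∀ g, (fun i : Fin 0 => ⟪X i, g⟫) = default := fun g => Subsingleton.elim _ _
    simp only [e, lintegral_const, measure_univ, mul_one, pow_zero, jac, one_mul]
    rw [lintegral_unique]
    simp [volume_pi]
    exact le_of_eq (congrArg F (Subsingleton.elim _ _))
  | n + 1, X, F, hF, hJ => by
    set x := X 0
    set Y := Fin.tail X
    set K := Submodule.span ℝ (Set.range Y)
    set p := x - K.starProjection x
    have hD : spanDist x Y = ENNReal.ofReal ‖p‖ := spanDist_eq x Y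
    have hJ' : (ENNReal.ofReal ‖p‖)⁻¹ * jac Y ≠ ⊤ := hD ▸ hJ
    have hpos : 0 < ‖p‖ := by
      by_contra h
      rw [ENNReal.ofReal_of_nonpos (not_lt.1 h), ENNReal.inv_zero,
        ENNReal.top_mul (jac_ne_zero Y)] at hJ'
      exact hJ' rfl
    have hY : jac Y ≠ ⊤ := fun h => hJ' (by
      rw [h, ENNReal.mul_top (ENNReal.inv_ne_zero.2 ENNReal.ofReal_ne_top)])
    set e := ‖p‖⁻¹ • p
    have he : ‖e‖ = 1 := by simp [e, norm_smul, hpos.ne']
    have hperp : ∀ i, ⟪Y i, e⟫ = 0 := by
      intro i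
      rw [inner_smul_right, real_inner_comm, K.starProjection_inner_eq_zero x (Y i)
        (Submodule.subset_span ⟨i, rfl⟩), mul_zero]
    have hxe : ⟪x, e⟫ = ‖p‖ := by
      have hx : x = p + K.starProjection x := by simp [p]
      have h0 : ⟪K.starProjection x, p⟫ = 0 := by
        rw [real_inner_comm]
        exact K.starProjection_inner_eq_zero x _ (K.starProjection_apply_mem x)
      rw [inner_smul_right, hx, inner_add_left, h0, real_inner_self_eq_norm_sq]
      field_simp
      ring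
    have hFX : Measurable fun g : EuclideanSpace ℝ (Fin (d + 1)) => F fun i => ⟪X i, g⟫ :=
      hF.comp (by fun_prop)
    have hFc : Measurable fun q : ℝ × (Fin n → ℝ) => F (Fin.cons q.1 q.2) := by
      refine hF.comp (measurable_pi_lambda _ fun i => ?_)
      cases i using Fin.cases with
      | zero => simpa using measurable_fst
      | succ j => simp only [Fin.cons_succ]; exact (measurable_pi_apply j).comp measurable_snd
    set F' : (Fin n → ℝ) → ℝ≥0∞ := fun y => ∫⁻ s, F (Fin.cons s y)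
    have hF' : Measurable F' :=
      Measurable.lintegral_prod_right' (f := fun q : (Fin n → ℝ) × ℝ => F (Fin.cons q.2 q.1))
        (hFc.comp measurable_swap)
    rw [lintegral_split he hFX]
    have key : ∀ g, ∫⁻ t, F (fun i => ⟪X i, g - ⟪e, g⟫ • e + t • e⟫) ∂G1
        ≤ ENNReal.ofReal (√(2 * π))⁻¹ * ((ENNReal.ofReal ‖p‖)⁻¹ * F' (fun i => ⟪Y i, g⟫)) := by
      intro g
      have hvec : ∀ t : ℝ, (fun i => ⟪X i, g - ⟪e, g⟫ • e + t • e⟫)
          = Fin.cons (⟪x, g⟫ - ⟪e, g⟫ * ‖p‖ + t * ‖p‖) (fun i => ⟪Y i, g⟫) := by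
        intro t
        ext i
        cases i using Fin.cases with
        | zero => simp [inner_add_right, inner_sub_right, inner_smul_right, hxe, x]
        | succ j =>
          have := hperp j
          simp [inner_add_right, inner_sub_right, inner_smul_right, Y, Fin.tail] at this ⊢
          simp [this]
      simp only [hvec]
      have hm : Measurable fun s : ℝ => F (Fin.cons s fun i => ⟪Y i, g⟫) :=
        hFc.comp measurable_prodMk_right
      rw [lintegral_G1 (f := fun t => F (Fin.cons (⟪x, g⟫ - ⟪e, g⟫ * ‖p‖ + t * ‖p‖)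
        fun i => ⟪Y i, g⟫)) (hm.comp (by fun_prop)), ← ENNReal.ofReal_inv_of_pos hpos,
        ← lintegral_affine hpos _ hm, ← lintegral_const_mul' _ _ ENNReal.ofReal_ne_top]
      refine lintegral_mono fun t => ?_
      gcongr
      unfold pdf1
      exact mul_le_of_le_one_right (by positivity) (Real.exp_le_one_iff.2 (by nlinarith))
    refine le_trans (lintegral_mono key) ?_
    rw [lintegral_const_mul' _ _ ENNReal.ofReal_ne_top,
      lintegral_const_mul' _ _ (ENNReal.inv_ne_top.2 (by simpa using hpos))]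
    refine le_trans (mul_le_mul_right (mul_le_mul_right (lawBound Y hF' hY) _) _) ?_
    have hint : ∫⁻ y, F y = ∫⁻ y, F' y := by
      rw [volume_pi, lintegral_pi_succ volume hF, lintegral_lintegral_swap hFc.aemeasurable]
      rfl
    rw [hint]
    change _ ≤ _ * ((spanDist x Y)⁻¹ * jac Y) * _
    rw [hD, pow_succ]
    exact le_of_eq (by ring)

lemma lintegral_inv_sqrt_G1 : ∫⁻ t, (ENNReal.ofReal √|t|)⁻¹ ∂G1 ≤ 3 := by
  have hq : Measurable fun t : ℝ => (ENNReal.ofReal √|t|)⁻¹ := by fun_prop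
  set q : ℝ → ℝ≥0∞ := fun t => (ENNReal.ofReal √|t|)⁻¹
  have h01 : ∫⁻ t in Set.Ioo (0:ℝ) 1, q t = 2 := by
    have himg : (fun s : ℝ => s ^ 2) '' Set.Ioo 0 1 = Set.Ioo 0 1 := by
      ext t
      constructor
      · rintro ⟨s, ⟨h1, h2⟩, rfl⟩; exact ⟨pow_pos h1 2, pow_lt_one₀ h1.le h2 two_ne_zero⟩
      · rintro ⟨h1, h2⟩
        exact ⟨√t, ⟨Real.sqrt_pos.2 h1, by rw [Real.sqrt_lt' one_pos]; simpa using h2⟩,
          Real.sq_sqrt h1.le⟩
    have h := lintegral_image_eq_lintegral_abs_deriv_mul (s := Set.Ioo (0:ℝ) 1)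
      (f := fun s => s ^ 2) (f' := fun s => 2 * s) measurableSet_Ioo
      (fun s _ => by simpa using (hasDerivAt_pow 2 s).hasDerivWithinAt)
      (fun a ha b hb h => by
        have := congrArg Real.sqrt h
        rwa [Real.sqrt_sq ha.1.le, Real.sqrt_sq hb.1.le] at this) q
    rw [himg] at h
    rw [h, setLIntegral_congr_fun measurableSet_Ioo (g := fun _ => (2:ℝ≥0∞))]
    · simp
    · intro s hs
      have h2 : |s ^ 2| = s ^ 2 := abs_of_pos (pow_pos hs.1 2)
      simp only [q, h2, Real.sqrt_sq hs.1.le]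
      rw [← ENNReal.ofReal_inv_of_pos hs.1, ← ENNReal.ofReal_mul (abs_nonneg _),
        abs_of_pos (by linarith [hs.1] : (0:ℝ) < 2 * s), mul_assoc, mul_inv_cancel₀ hs.1.ne']
      simp
  have h10 : ∫⁻ t in Set.Ioo (-1:ℝ) 0, q t = 2 := by
    rw [← h01, ← lintegral_indicator measurableSet_Ioo, ← lintegral_indicator measurableSet_Ioo,
      ← lintegral_neg_eq_self (μ := (volume : Measure ℝ)) ((Set.Ioo (0:ℝ) 1).indicator q)]
    refine lintegral_congr fun t => ?_
    simp only [Set.indicator_apply, Set.mem_Ioo, q, abs_neg]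
    by_cases h : -1 < t ∧ t < 0
    · rw [if_pos h, if_pos ⟨by linarith [h.2], by linarith [h.1]⟩]
    · rw [if_neg h, if_neg fun h' => h ⟨by linarith [h'.2], by linarith [h'.1]⟩]
  set a : ℝ≥0∞ := ENNReal.ofReal (√(2 * π))⁻¹
  have hae : ∀ᵐ t : ℝ, ENNReal.ofReal (pdf1 t) * q t ≤
      a * (Set.Ioo (-1:ℝ) 0).indicator q t + a * (Set.Ioo (0:ℝ) 1).indicator q t
        + ENNReal.ofReal (pdf1 t) := by
    filter_upwards [(Measure.ae_ne volume (0:ℝ))] with t ht
    have hp : ENNReal.ofReal (pdf1 t) ≤ a := by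
      refine ENNReal.ofReal_le_ofReal ?_
      exact mul_le_of_le_one_right (by positivity) (Real.exp_le_one_iff.2 (by nlinarith))
    by_cases h : 1 ≤ |t|
    · refine le_trans ?_ le_add_self
      refine mul_le_of_le_one_right' ?_
      simpa [q, ENNReal.inv_le_one] using h
    · rw [not_le, abs_lt] at h
      refine le_trans ?_ le_self_add
      rcases lt_or_gt_of_ne ht with h' | h'
      · refine le_trans ?_ le_self_add
        rw [Set.indicator_of_mem (Set.mem_Ioo.2 ⟨h.1, h'⟩)]
        exact mul_le_mul_left hp _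
      · refine le_trans ?_ le_add_self
        rw [Set.indicator_of_mem (Set.mem_Ioo.2 ⟨h', h.2⟩)]
        exact mul_le_mul_left hp _
  have h1 : ∫⁻ t, ENNReal.ofReal (pdf1 t) = 1 := by
    simpa using (lintegral_G1 (f := fun _ => (1:ℝ≥0∞)) measurable_const).symm
  rw [lintegral_G1 hq]
  refine le_trans (lintegral_mono_ae hae) ?_
  rw [lintegral_add_right _ measurable_pdf1.ennreal_ofReal,
    lintegral_add_right _ ((hq.indicator measurableSet_Ioo).const_mul a), h1,
    lintegral_const_mul' _ _ ENNReal.ofReal_ne_top, lintegral_const_mul' _ _ ENNReal.ofReal_ne_top,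
    lintegral_indicator measurableSet_Ioo, lintegral_indicator measurableSet_Ioo, h01, h10]
  have ha : a ≤ ENNReal.ofReal (1/2) := by
    refine ENNReal.ofReal_le_ofReal ?_
    rw [one_div]
    refine inv_anti₀ two_pos ?_
    rw [Real.le_sqrt two_pos.le]
    · nlinarith [Real.two_le_pi]
    · positivity
  calc a * 2 + a * 2 + 1 ≤ ENNReal.ofReal (1/2) * 2 + ENNReal.ofReal (1/2) * 2 + 1 := by gcongr
    _ = 3 := by
      rw [← ENNReal.ofReal_ofNat 2, ← ENNReal.ofReal_mul (by norm_num)]
      norm_num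

/-- Negative moment of the distance to a span of codimension at least `2 r`. -/
lemma lintegral_spanDist_inv {d n r : ℕ} (hr : 1 ≤ r) (hd : n + 2 * r ≤ d)
    (Y : Fin n → EuclideanSpace ℝ (Fin d)) :
    ∫⁻ x, (spanDist x Y)⁻¹ ^ r ∂stdGaussian (EuclideanSpace ℝ (Fin d))
      ≤ ENNReal.ofReal ((9 / √(2 * r)) ^ r) := by
  classical
  set l := 2 * r with hl
  obtain ⟨k, rfl⟩ : ∃ k, d = l + k := ⟨d - l, by omega⟩
  set K := Submodule.span ℝ (Set.range Y)
  have hK : Module.finrank ℝ K ≤ n := by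
    exact le_of_le_of_eq (finrank_range_le_card (R := ℝ) Y) (Fintype.card_fin n)
  have hKo : l ≤ Module.finrank ℝ Kᗮ := by
    have := K.finrank_add_finrank_orthogonal
    rw [finrank_euclideanSpace_fin] at this
    omega
  set u : Fin l → EuclideanSpace ℝ (Fin (l + k)) :=
    fun j => (stdOrthonormalBasis ℝ Kᗮ (Fin.castLE hKo j) : EuclideanSpace ℝ (Fin (l + k)))
  have hu : Orthonormal ℝ u :=
    (((stdOrthonormalBasis ℝ Kᗮ).orthonormal.comp _ (Fin.castLE_injective hKo))).comp_linearIsometry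
      Kᗮ.subtypeₗᵢ
  set v : Fin (l + k) → EuclideanSpace ℝ (Fin (l + k)) := Fin.append u fun _ => 0
  have hv : Orthonormal ℝ ((Set.range (Fin.castAdd k : Fin l → Fin (l + k))).domRestrict v) := by
    rw [orthonormal_iff_ite]
    rintro ⟨_, i, rfl⟩ ⟨_, j, rfl⟩
    simp only [Set.domRestrict, v, Fin.append_left]
    rw [orthonormal_iff_ite.1 hu i j]
    by_cases h : i = j
    · simp [h]
    · rw [if_neg h, if_neg]
      exact fun h' => h (Fin.castAdd_injective _ _ (congrArg Subtype.val h'))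
  obtain ⟨b, hb⟩ := hv.exists_orthonormalBasis_extension_of_card_eq (by simp) (v := v)
  have hbu : ∀ j, b (Fin.castAdd k j) = u j := fun j => by
    rw [hb _ ⟨j, rfl⟩]; simp [v]
  set q : ℝ → ℝ≥0∞ := fun t => (ENNReal.ofReal √|t|)⁻¹
  set c : ℝ≥0∞ := ENNReal.ofReal (√l ^ r)⁻¹
  have hlpos : (0:ℝ) < l := by
    have : 0 < l := by omega
    exact_mod_cast this
  have key : ∀ x, (spanDist x Y)⁻¹ ^ r ≤ c * ∏ j, q ⟪u j, x⟫ := by
    intro x
    rw [spanDist_eq]
    set δ := ‖x - K.starProjection x‖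
    by_cases h0 : ∃ j, ⟪u j, x⟫ = 0
    · obtain ⟨j, hj⟩ := h0
      have hne : ∀ i ∈ Finset.univ.erase j, q ⟪u i, x⟫ ≠ 0 := fun i _ => by simp [q]
      have : ∏ i, q ⟪u i, x⟫ = ⊤ := by
        rw [← Finset.mul_prod_erase _ _ (Finset.mem_univ j)]
        simp only [q, hj, abs_zero, Real.sqrt_zero, ENNReal.ofReal_zero, ENNReal.inv_zero]
        exact ENNReal.top_mul (Finset.prod_ne_zero_iff.2 hne)
      rw [this, ENNReal.mul_top]
      · exact le_top
      · simp only [c, ne_eq, ENNReal.ofReal_eq_zero, not_le]; positivity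
    push Not at h0
    set a := fun j => ⟪u j, x⟫
    have hsum : ∑ j, a j ^ 2 ≤ δ ^ 2 := by
      have h1 := hu.sum_inner_products_le (x - K.starProjection x) (s := Finset.univ)
      simp only [Real.norm_eq_abs, sq_abs] at h1
      refine le_trans (le_of_eq (Finset.sum_congr rfl fun j _ => ?_)) h1
      have h2 : ⟪u j, K.starProjection x⟫ = 0 := by
        rw [real_inner_comm]
        exact Submodule.inner_right_of_mem_orthogonal (K.starProjection_apply_mem x)
          (Submodule.coe_mem _)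
      rw [inner_sub_right, h2, sub_zero]
    have hG : (∏ j, √|a j|) ^ 4 ≤ ((δ / √l) ^ r) ^ 4 := by
      have h1 := Real.geom_mean_le_arith_mean_weighted Finset.univ (fun _ : Fin l => (1:ℝ) / l)
        (fun j => a j ^ 2) (fun _ _ => by positivity)
        (by rw [Finset.sum_const, Finset.card_univ, Fintype.card_fin, nsmul_eq_mul]; field_simp)
        (fun _ _ => sq_nonneg _)
      have h2 : ∏ j, a j ^ 2 ≤ (δ ^ 2 / l) ^ l := by
        have h3 : (∏ j, (a j ^ 2) ^ ((1:ℝ) / l)) ^ l ≤ (δ ^ 2 / l) ^ l := by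
          refine pow_le_pow_left₀ (Finset.prod_nonneg fun _ _ => Real.rpow_nonneg (sq_nonneg _) _)
            (h1.trans ?_) l
          rw [← Finset.mul_sum, one_div_mul_eq_div]
          gcongr
        refine le_trans (le_of_eq ?_) h3
        rw [← Finset.prod_pow]
        refine Finset.prod_congr rfl fun j _ => ?_
        rw [one_div, Real.rpow_inv_natCast_pow (sq_nonneg _) (by omega)]
      refine le_trans (le_of_eq ?_) (h2.trans (le_of_eq ?_))
      · rw [← Finset.prod_pow]
        refine Finset.prod_congr rfl fun j _ => ?_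
        rw [show (4:ℕ) = 2 * 2 by norm_num, pow_mul, Real.sq_sqrt (abs_nonneg _), sq_abs]
      · rw [← pow_mul, div_pow, show r * 4 = 2 * l by omega, pow_mul (δ / √(l:ℝ)), div_pow δ,
          Real.sq_sqrt (Nat.cast_nonneg l), div_pow]
    have hG' : ∏ j, √|a j| ≤ (δ / √l) ^ r :=
      le_of_pow_le_pow_left₀ (by norm_num) (by positivity) hG
    have hpos : 0 < ∏ j, √|a j| :=
      Finset.prod_pos fun j _ => Real.sqrt_pos.2 (abs_pos.2 (h0 j))
    have hδ : 0 < δ := by
      have h4 := hpos.trans_le hG'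
      have h5 : (0:ℝ) ≤ δ := norm_nonneg _
      rcases h5.lt_or_eq with h | h
      · exact h
      · rw [show δ = 0 from h.symm, zero_div, zero_pow (by omega)] at h4
        exact absurd h4 (lt_irrefl 0)
    rw [← ENNReal.ofReal_inv_of_pos hδ, ← ENNReal.ofReal_pow (by positivity)]
    have hq : ∀ j, q (a j) = ENNReal.ofReal (√|a j|)⁻¹ := fun j =>
      (ENNReal.ofReal_inv_of_pos (Real.sqrt_pos.2 (abs_pos.2 (h0 j)))).symm
    change _ ≤ c * ∏ j, q (a j)
    simp only [hq, c]
    rw [← ENNReal.ofReal_prod_of_nonneg fun j _ => by positivity, ← ENNReal.ofReal_mul (by positivity)]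
    refine ENNReal.ofReal_le_ofReal ?_
    rw [Finset.prod_inv_distrib, ← mul_inv, inv_pow]
    refine inv_anti₀ (by positivity) ?_
    rw [div_pow, le_div_iff₀ (by positivity)] at hG'
    linarith
  refine le_trans (lintegral_mono key) ?_
  rw [lintegral_const_mul' _ _ ENNReal.ofReal_ne_top, stdGaussian_eq_map_pi_orthonormalBasis b,
    lintegral_map (by fun_prop) (by fun_prop)]
  have hx : ∀ (x : Fin (l + k) → ℝ) j, ⟪u j, ∑ i, x i • b i⟫ = x (Fin.castAdd k j) := by
    intro x j
    rw [← hbu, b.orthonormal.inner_right_fintype]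
  set g : Fin (l + k) → ℝ → ℝ≥0∞ := Fin.append (fun _ => q) fun _ _ => 1
  have hgx : ∀ x : Fin (l + k) → ℝ, ∏ i, g i (x i) = ∏ j, q (x (Fin.castAdd k j)) := by
    intro x
    simp [Fin.prod_univ_add, g]
  simp only [hx, ← hgx]
  have hgm : ∀ i, Measurable (g i) := by
    intro i
    cases i using Fin.addCases with
    | left j => simp only [g, Fin.append_left]; fun_prop
    | right j => simp only [g, Fin.append_right]; exact measurable_const
  rw [lintegral_pi_prod G1 g hgm, Fin.prod_univ_add]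
  simp only [g, Fin.append_left, Fin.append_right, lintegral_const, measure_univ, mul_one,
    Finset.prod_const_one, Finset.prod_const, Finset.card_univ, Fintype.card_fin]
  refine le_trans (mul_le_mul_right (pow_le_pow_left₀ zero_le lintegral_inv_sqrt_G1 l) _) ?_
  rw [← ENNReal.ofReal_ofNat 3, ← ENNReal.ofReal_pow (by norm_num),
    ← ENNReal.ofReal_mul (by positivity)]
  refine le_of_eq (congrArg _ ?_)
  rw [hl, pow_mul, div_pow, Nat.cast_mul, Nat.cast_ofNat, div_eq_inv_mul]
  norm_num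

/-- Negative moment of the volume of `n` normal rows. -/
theorem lintegral_jac {d r : ℕ} (hr : 1 ≤ r) : ∀ {n : ℕ}, n + 2 * r ≤ d →
    ∫⁻ X, jac X ^ r ∂Measure.pi (fun _ : Fin n => stdGaussian (EuclideanSpace ℝ (Fin d)))
      ≤ ENNReal.ofReal ((9 / √(2 * r)) ^ r) ^ n
  | 0, _ => by simp [jac]
  | n + 1, hn => by
    rw [lintegral_pi_succ _ (measurable_jac.pow_const r)]
    simp only [jac, Fin.cons_zero, Fin.tail_cons, mul_pow]
    have hm : Measurable fun p : EuclideanSpace ℝ (Fin d) × (Fin n → EuclideanSpace ℝ (Fin d)) =>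
        (spanDist p.1 p.2)⁻¹ ^ r * jac p.2 ^ r :=
      (measurable_spanDist.inv.pow_const r).mul ((measurable_jac.comp measurable_snd).pow_const r)
    rw [lintegral_lintegral_swap hm.aemeasurable]
    have hmx : ∀ Y : Fin n → EuclideanSpace ℝ (Fin d),
        Measurable fun x => (spanDist x Y)⁻¹ ^ r := fun Y =>
      ((measurable_spanDist.comp measurable_prodMk_right).inv).pow_const r
    calc _ ≤ ∫⁻ Y, ENNReal.ofReal ((9 / √(2 * r)) ^ r) * jac Y ^ r
          ∂Measure.pi (fun _ : Fin n => stdGaussian (EuclideanSpace ℝ (Fin d))) := by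
          refine lintegral_mono fun Y => ?_
          simp only
          rw [lintegral_mul_const _ (hmx Y)]
          exact mul_le_mul_left (lintegral_spanDist_inv hr (by omega) Y) _
      _ ≤ _ := by
          rw [lintegral_const_mul' _ _ ENNReal.ofReal_ne_top, pow_succ']
          exact mul_le_mul_right (lintegral_jac hr (by omega)) _

end Vale.Agent.P309
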