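import Vale.Agent.P309.Gauss

/-! One phase: the squaring step on the density bound of the posterior. -/

namespace Vale.Agent.P309

open MeasureTheory ProbabilityTheory Real
open scoped ENNReal NNReal RealInnerProductSpace

/-- The standard normal law on `d`-space. -/
noncomputable abbrev rowLaw (d : ℕ) : Measure (EuclideanSpace ℝ (Fin d)) :=
  stdGaussian (EuclideanSpace ℝ (Fin d))

/-- The labels of a list of rows. -/
noncomputable def labels {d k : ℕ} (X : Fin k → EuclideanSpace ℝ (Fin d))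
    (s : EuclideanSpace ℝ (Fin d)) : Fin k → ℝ := fun i => ⟪X i, s⟫

/-- The label window. -/
def window (k : ℕ) : Set (Fin k → ℝ) := {y | ∑ i, y i ^ 2 ≤ 3 * k}

lemma measurableSet_window (k : ℕ) : MeasurableSet (window k) :=
  measurableSet_le (by fun_prop) measurable_const

lemma measurable_labels {d k : ℕ} : Measurable
    fun p : (Fin k → EuclideanSpace ℝ (Fin d)) × EuclideanSpace ℝ (Fin d) => labels p.1 p.2 :=
  measurable_pi_lambda _ fun i => by simp only [labels]; fun_prop

lemma lintegral_pi_append {α : Type*} [MeasurableSpace α] (μ : Measure α) [SigmaFinite μ] {a b : ℕ}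
    {f : (Fin (a + b) → α) → ℝ≥0∞} (hf : Measurable f) :
    ∫⁻ z, f z ∂Measure.pi (fun _ => μ)
      = ∫⁻ x, ∫⁻ y, f (Fin.append x y) ∂Measure.pi (fun _ => μ) ∂Measure.pi (fun _ => μ) := by
  have h1 := (measurePreserving_piCongrLeft (fun _ : Fin (a + b) => μ) finSumFinEquiv).comp
    (measurePreserving_sumPiEquivProdPi_symm (fun _ : Fin a ⊕ Fin b => μ))
  rw [← h1.lintegral_comp hf, lintegral_prod]
  swap
  · exact (hf.comp h1.measurable).aemeasurable
  refine lintegral_congr fun x => lintegral_congr fun y => congrArg f ?_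
  funext i
  obtain ⟨j, rfl⟩ := finSumFinEquiv.surjective i
  simp only [Function.comp_apply, MeasurableEquiv.coe_piCongrLeft]
  rw [Equiv.piCongrLeft_apply_apply]
  cases j
  · simp
    rfl
  · simp
    rfl

lemma lintegral_inner_unit {d : ℕ} {s : EuclideanSpace ℝ (Fin (d + 1))} (hs : ‖s‖ = 1)
    {h : ℝ → ℝ≥0∞} (hh : Measurable h) : ∫⁻ g, h ⟪g, s⟫ ∂rowLaw (d + 1) = ∫⁻ t, h t ∂G1 := by
  have hm : Measurable fun g : EuclideanSpace ℝ (Fin (d + 1)) => h ⟪g, s⟫ := hh.comp (by fun_prop)
  rw [rowLaw, lintegral_split hs hm]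
  have e : ∀ (g : EuclideanSpace ℝ (Fin (d + 1))) (t : ℝ),
      ⟪g - ⟪s, g⟫ • s + t • s, s⟫ = t := fun g t => by
    rw [inner_add_left, inner_sub_left, inner_smul_left, inner_smul_left,
      real_inner_self_eq_norm_sq, hs, real_inner_comm g s]
    simp
  simp [e]

/-- The labels of `k` rows leave the window with exponentially small probability. -/
lemma window_compl_le {d k : ℕ} (g : EuclideanSpace ℝ (Fin (d + 1))) :
    ∫⁻ X, (window k)ᶜ.indicator (fun _ => (1:ℝ≥0∞)) (labels X (‖g‖⁻¹ • g))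
      ∂Measure.pi (fun _ => rowLaw (d + 1)) ≤ ENNReal.ofReal ((3/4) ^ k) := by
  rcases eq_or_ne g 0 with rfl | hg
  · have h0 : ∀ X : Fin k → EuclideanSpace ℝ (Fin (d + 1)),
        labels X (‖(0 : EuclideanSpace ℝ (Fin (d + 1)))‖⁻¹ • 0) ∈ window k := fun X => by
      simp [labels, window]
    refine le_trans (le_of_eq ((lintegral_congr fun X => ?_).trans lintegral_zero)) zero_le
    exact Set.indicator_of_notMem (Set.notMem_compl_iff.2 (h0 X)) _
  set s := ‖g‖⁻¹ • g
  have hs : ‖s‖ = 1 := by simp [s, norm_smul, hg]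
  set q : ℝ → ℝ≥0∞ := fun t => ENNReal.ofReal (Real.exp (-(3/4) + t ^ 2 / 4))
  have hq : Measurable q := by fun_prop
  calc _ ≤ ∫⁻ X, ∏ i, q ⟪X i, s⟫ ∂Measure.pi (fun _ : Fin k => rowLaw (d + 1)) := by
        refine lintegral_mono fun X => ?_
        by_cases h : labels X s ∈ (window k)ᶜ
        · rw [Set.indicator_of_mem h]
          simp only [q]
          rw [← ENNReal.ofReal_prod_of_nonneg fun i _ => (Real.exp_pos _).le, ← Real.exp_sum,
            ← ENNReal.ofReal_one]
          refine ENNReal.ofReal_le_ofReal (Real.one_le_exp ?_)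
          simp only [window, labels, Set.mem_compl_iff, Set.mem_ofPred_eq, not_le] at h
          simp only [Finset.sum_add_distrib, ← Finset.sum_div, Finset.sum_const, Finset.card_univ,
            Fintype.card_fin, nsmul_eq_mul]
          linarith
        · rw [Set.indicator_of_notMem h]
          exact zero_le
    _ = ∏ _i : Fin k, ∫⁻ t, q t ∂G1 := by
        rw [lintegral_pi_prod (rowLaw (d + 1)) (fun _ : Fin k => fun x => q ⟪x, s⟫)
          fun _ => hq.comp (by fun_prop)]
        exact Finset.prod_congr rfl fun i _ => lintegral_inner_unit hs hq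
    _ ≤ ∏ _i : Fin k, ENNReal.ofReal (3/4) := by
        refine Finset.prod_le_prod' fun i _ => ?_
        have key : ∀ t, ENNReal.ofReal (pdf1 t) * q t
            = ENNReal.ofReal (Real.exp (-(3/4)) * √2) * gaussianPDF 0 2 t := by
          intro t
          simp only [gaussianPDF_def, gaussianPDFReal_def, q]
          rw [← ENNReal.ofReal_mul (pdf1_nonneg t), ← ENNReal.ofReal_mul (by positivity)]
          congr 1
          simp only [pdf1, NNReal.coe_ofNat, sub_zero]
          rw [Real.exp_add, Real.sqrt_mul (by positivity : (0:ℝ) ≤ 2 * π) 2,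
            show Real.exp (-t ^ 2 / (2 * 2)) = Real.exp (-t ^ 2 / 2) * Real.exp (t ^ 2 / 4) by
              rw [← Real.exp_add]; ring_nf]
          field_simp
        rw [lintegral_G1 hq, lintegral_congr key, lintegral_const_mul' _ _ ENNReal.ofReal_ne_top,
          lintegral_gaussianPDF_eq_one 0 (two_ne_zero), mul_one]
        refine ENNReal.ofReal_le_ofReal ?_
        have h1 : (2:ℝ) ≤ Real.exp (3/4) := by
          have := Real.quadratic_le_exp_of_nonneg (show (0:ℝ) ≤ 3/4 by norm_num)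
          linarith
        have h2 : √2 ≤ 3/2 := by rw [Real.sqrt_le_iff]; norm_num
        rw [Real.exp_neg, inv_mul_le_iff₀ (Real.exp_pos _)]
        linarith
    _ = _ := by
        rw [Finset.prod_const, Finset.card_univ, Fintype.card_fin, ENNReal.ofReal_pow (by norm_num)]

lemma volume_window_le (k : ℕ) : volume (window k) ≤ ENNReal.ofReal (16 ^ k) := by
  set q : ℝ → ℝ≥0∞ := fun t => ENNReal.ofReal (Real.exp (3/2 - t ^ 2 / 2))
  have hq : Measurable q := by fun_prop
  rw [← lintegral_indicator_one (measurableSet_window k)]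
  calc _ ≤ ∫⁻ y : Fin k → ℝ, ∏ i, q (y i) := by
        refine lintegral_mono fun y => ?_
        by_cases h : y ∈ window k
        · rw [Set.indicator_of_mem h, Pi.one_apply]
          simp only [q]
          rw [← ENNReal.ofReal_prod_of_nonneg fun i _ => (Real.exp_pos _).le, ← Real.exp_sum,
            ← ENNReal.ofReal_one]
          refine ENNReal.ofReal_le_ofReal (Real.one_le_exp ?_)
          simp only [window, Set.mem_ofPred_eq] at h
          simp only [Finset.sum_sub_distrib, ← Finset.sum_div, Finset.sum_const, Finset.card_univ,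
            Fintype.card_fin, nsmul_eq_mul]
          linarith
        · rw [Set.indicator_of_notMem h]
          exact zero_le
    _ ≤ ∏ _i : Fin k, ENNReal.ofReal 16 := by
        rw [volume_pi, lintegral_pi_prod volume (fun _ : Fin k => q) fun _ => hq]
        refine Finset.prod_le_prod' fun i _ => ?_
        have key : ∀ t, q t = ENNReal.ofReal (Real.exp (3/2) * √(2 * π)) * gaussianPDF 0 1 t := by
          intro t
          simp only [gaussianPDF_def, gaussianPDFReal_def, q]
          rw [← ENNReal.ofReal_mul (by positivity)]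
          congr 1
          simp only [NNReal.coe_one, sub_zero, mul_one]
          rw [sub_eq_add_neg, Real.exp_add, neg_div]
          field_simp
        rw [lintegral_congr key, lintegral_const_mul' _ _ ENNReal.ofReal_ne_top,
          lintegral_gaussianPDF_eq_one 0 one_ne_zero, mul_one]
        refine ENNReal.ofReal_le_ofReal ?_
        have h1 : Real.exp (3/2) ≤ 5 := by
          have h := Real.exp_one_lt_d9
          have h' : Real.exp (3/2) = Real.exp 1 * √(Real.exp 1) := by
            rw [← Real.exp_half, ← Real.exp_add]; norm_num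
          have h2 : √(Real.exp 1) ≤ 1.7 := by rw [Real.sqrt_le_iff]; constructor <;> linarith
          rw [h']
          nlinarith [Real.exp_pos 1, Real.sqrt_nonneg (Real.exp 1)]
        have h2 : √(2 * π) ≤ 3 := by
          rw [Real.sqrt_le_iff]; constructor <;> linarith [Real.pi_le_four]
        nlinarith [Real.sqrt_nonneg (2 * π), Real.exp_pos (3/2)]
    _ = _ := by
        rw [Finset.prod_const, Finset.card_univ, Fintype.card_fin, ENNReal.ofReal_pow (by norm_num)]

/-- Two-point bound for a pair of row blocks. -/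
lemma pair_bound {m k : ℕ} (hm : 0 < m) (hk : k + k ≤ m)
    (Z : Fin (k + k) → EuclideanSpace ℝ (Fin (m + 2))) {G : (Fin (k + k) → ℝ) → ℝ≥0∞}
    (hG : Measurable G) (hJ : jac Z ≠ ⊤) :
    ∫⁻ g, G (labels Z (‖g‖⁻¹ • g)) ∂rowLaw (m + 2)
      ≤ ENNReal.ofReal (2 * 3 ^ (m + 2) * (√((m:ℝ) + 2) / √(2 * π)) ^ (k + k))
        * jac Z * ∫⁻ y, G y := by
  classical
  set K := Submodule.span ℝ (Set.range Z)
  have hK : Module.finrank ℝ K ≤ k + k :=
    le_of_le_of_eq (finrank_range_le_card (R := ℝ) Z) (Fintype.card_fin _)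
  have hKo : 2 ≤ Module.finrank ℝ Kᗮ := by
    have := K.finrank_add_finrank_orthogonal
    rw [finrank_euclideanSpace_fin] at this
    omega
  set b := stdOrthonormalBasis ℝ Kᗮ
  set e : EuclideanSpace ℝ (Fin (m + 2)) := (b (Fin.castLE hKo 0) : EuclideanSpace ℝ (Fin (m + 2)))
  set e' : EuclideanSpace ℝ (Fin (m + 2)) := (b (Fin.castLE hKo 1) : EuclideanSpace ℝ (Fin (m + 2)))
  have he : ‖e‖ = 1 := b.orthonormal.1 _
  have he' : ‖e'‖ = 1 := b.orthonormal.1 _
  have hee : ⟪e, e'⟫ = 0 :=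
    b.orthonormal.2 fun h => absurd (Fin.castLE_injective hKo h) (by decide)
  have hperp : ∀ i, ⟪Z i, e⟫ = 0 ∧ ⟪Z i, e'⟫ = 0 := fun i =>
    have hi : Z i ∈ K := Submodule.subset_span ⟨i, rfl⟩
    ⟨Submodule.inner_right_of_mem_orthogonal hi (Submodule.coe_mem _),
      Submodule.inner_right_of_mem_orthogonal hi (Submodule.coe_mem _)⟩
  have hf : Measurable fun g => G (labels Z g) :=
    hG.comp (measurable_labels.comp measurable_prodMk_left)
  refine le_trans (dom hm hf he he' hee fun g a c => ?_) ?_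
  · congr 1
    funext i
    simp [labels, inner_add_right, inner_smul_right, (hperp i).1, (hperp i).2]
  set s : ℝ := √((m:ℝ) + 2)
  have hs : 0 < s := by positivity
  have hlab : ∀ g, labels Z (s⁻¹ • g) = s⁻¹ • fun i => ⟪Z i, g⟫ := by
    intro g; funext i; simp [labels, inner_smul_right]
  simp only [hlab]
  refine le_trans (mul_le_mul_right
    (lawBound (d := m + 1) Z (F := fun y => G (s⁻¹ • y)) (hG.comp (measurable_const_smul _)) hJ) _) ?_
  rw [lintegral_scale hs (F := fun y => G (s⁻¹ • y)) (hG.comp (measurable_const_smul _))]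
  simp only [inv_smul_smul₀ hs.ne']
  rw [ENNReal.ofReal_mul (show (0:ℝ) ≤ 2 * 3 ^ (m + 2) by positivity), div_pow, div_eq_mul_inv,
    ENNReal.ofReal_mul (show (0:ℝ) ≤ s ^ (k + k) by positivity), ← inv_pow (√(2 * π)) (k + k),
    ENNReal.ofReal_pow (p := (√(2 * π))⁻¹) (by positivity)]
  exact le_of_eq (by ring)

/-- The first block of a concatenated tuple. -/
def fstBlock {α : Type*} {k : ℕ} (Z : Fin (k + k) → α) : Fin k → α := fun i => Z (Fin.castAdd k i)

/-- The second block of a concatenated tuple. -/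
def sndBlock {α : Type*} {k : ℕ} (Z : Fin (k + k) → α) : Fin k → α := fun i => Z (Fin.natAdd k i)

lemma measurable_fstBlock {α : Type*} [MeasurableSpace α] {k : ℕ} :
    Measurable (fstBlock : (Fin (k + k) → α) → Fin k → α) :=
  measurable_pi_lambda _ fun _ => measurable_pi_apply _

lemma measurable_sndBlock {α : Type*} [MeasurableSpace α] {k : ℕ} :
    Measurable (sndBlock : (Fin (k + k) → α) → Fin k → α) :=
  measurable_pi_lambda _ fun _ => measurable_pi_apply _

lemma fstBlock_append {α : Type*} {k : ℕ} (x y : Fin k → α) : fstBlock (Fin.append x y) = x :=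
  funext fun i => Fin.append_left x y i

lemma sndBlock_append {α : Type*} {k : ℕ} (x y : Fin k → α) : sndBlock (Fin.append x y) = y :=
  funext fun i => Fin.append_right x y i

lemma fstBlock_labels {d k : ℕ} (Z : Fin (k + k) → EuclideanSpace ℝ (Fin d))
    (s : EuclideanSpace ℝ (Fin d)) : fstBlock (labels Z s) = labels (fstBlock Z) s := rfl

lemma sndBlock_labels {d k : ℕ} (Z : Fin (k + k) → EuclideanSpace ℝ (Fin d))
    (s : EuclideanSpace ℝ (Fin d)) : sndBlock (labels Z s) = labels (sndBlock Z) s := rfl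

variable {N m k : ℕ}

/-- Mixture of a block kernel under a prior on states. -/
noncomputable def mix (π₀ : Fin N → ℝ≥0∞)
    (blk : Fin N → (Fin k → EuclideanSpace ℝ (Fin (m + 2))) → (Fin k → ℝ) → Fin N → ℝ≥0∞)
    (v : Fin N) (X : Fin k → EuclideanSpace ℝ (Fin (m + 2))) (y : Fin k → ℝ) : ℝ≥0∞ :=
  (window k).indicator (fun y => ∑ w, π₀ w * blk w X y v) y

lemma measurable_mix {π₀ : Fin N → ℝ≥0∞}
    {blk : Fin N → (Fin k → EuclideanSpace ℝ (Fin (m + 2))) → (Fin k → ℝ) → Fin N → ℝ≥0∞}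
    (hb : ∀ w v, Measurable fun p : (Fin k → EuclideanSpace ℝ (Fin (m + 2))) × (Fin k → ℝ) =>
      blk w p.1 p.2 v) (v : Fin N) :
    Measurable fun p : (Fin k → EuclideanSpace ℝ (Fin (m + 2))) × (Fin k → ℝ) =>
      mix π₀ blk v p.1 p.2 := by
  classical
  simp only [mix, Set.indicator_apply]
  exact Measurable.ite (measurable_snd (measurableSet_window k))
    (Finset.measurable_sum _ fun w _ => (hb w v).const_mul _) measurable_const

/-- The mean square of the mixture as a function of the signal. -/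
lemma second_moment (hm : 0 < m) (hk : k + k ≤ m)
    {Φ : (Fin k → EuclideanSpace ℝ (Fin (m + 2))) → (Fin k → ℝ) → ℝ≥0∞}
    (hΦ : Measurable fun p : (Fin k → EuclideanSpace ℝ (Fin (m + 2))) × (Fin k → ℝ) => Φ p.1 p.2)
    (hle : ∀ X y, Φ X y ≤ 1) {t : ℝ≥0∞} (ht : t ≠ ⊤) :
    ∫⁻ g, (∫⁻ X, Φ X (labels X (‖g‖⁻¹ • g)) ∂Measure.pi (fun _ => rowLaw (m + 2))) ^ 2
        ∂rowLaw (m + 2)
      ≤ ENNReal.ofReal (2 * 3 ^ (m + 2) * (√((m:ℝ) + 2) / √(2 * π)) ^ (k + k)) * t
          * (∫⁻ X, ∫⁻ y, Φ X y ∂volume ∂Measure.pi (fun _ => rowLaw (m + 2))) ^ 2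
        + Measure.pi (fun _ : Fin (k + k) => rowLaw (m + 2)) {Z | t < jac Z} := by
  classical
  generalize hcdef : ENNReal.ofReal (2 * 3 ^ (m + 2) * (√((m:ℝ) + 2) / √(2 * π)) ^ (k + k)) = c
  set Ψ : (Fin (k + k) → EuclideanSpace ℝ (Fin (m + 2))) → (Fin (k + k) → ℝ) → ℝ≥0∞ :=
    fun Z y => Φ (fstBlock Z) (fstBlock y) * Φ (sndBlock Z) (sndBlock y)
  have hΨ : Measurable fun p : (Fin (k + k) → EuclideanSpace ℝ (Fin (m + 2))) ×
      (Fin (k + k) → ℝ) => Ψ p.1 p.2 :=
    (hΦ.comp ((measurable_fstBlock.comp measurable_fst).prodMk (measurable_fstBlock.comp measurable_snd))).mul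
      (hΦ.comp ((measurable_sndBlock.comp measurable_fst).prodMk (measurable_sndBlock.comp measurable_snd)))
  have hΨg : Measurable fun p : EuclideanSpace ℝ (Fin (m + 2)) ×
      (Fin (k + k) → EuclideanSpace ℝ (Fin (m + 2))) => Ψ p.2 (labels p.2 (‖p.1‖⁻¹ • p.1)) :=
    hΨ.comp (measurable_snd.prodMk (measurable_labels.comp
      (measurable_snd.prodMk (by fun_prop))))
  have hΦs : ∀ s, Measurable fun X => Φ X (labels X s) := fun s =>
    hΦ.comp (measurable_id.prodMk (measurable_labels.comp measurable_prodMk_right))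
  set φ := fun X => ∫⁻ y, Φ X y
  have hφ : Measurable φ := hΦ.lintegral_prod_right'
  have hsq : ∀ g : EuclideanSpace ℝ (Fin (m + 2)),
      (∫⁻ X, Φ X (labels X (‖g‖⁻¹ • g)) ∂Measure.pi (fun _ : Fin k => rowLaw (m + 2))) ^ 2
        = ∫⁻ Z, Ψ Z (labels Z (‖g‖⁻¹ • g)) ∂Measure.pi (fun _ : Fin (k + k) => rowLaw (m + 2)) := by
    intro g
    rw [lintegral_pi_append _ (f := fun Z => Ψ Z (labels Z (‖g‖⁻¹ • g)))
      (hΨg.comp measurable_prodMk_left), sq,
      ← lintegral_mul_const _ (hΦs _)]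
    refine lintegral_congr fun X => ?_
    rw [← lintegral_const_mul _ (hΦs _)]
    refine lintegral_congr fun X' => ?_
    simp only [Ψ, fstBlock_labels, sndBlock_labels, fstBlock_append, sndBlock_append]
  simp only [hsq]
  rw [lintegral_lintegral_swap hΨg.aemeasurable]
  set Bad : Set (Fin (k + k) → EuclideanSpace ℝ (Fin (m + 2))) := {Z | t < jac Z}
  have hBad : MeasurableSet Bad := measurableSet_lt measurable_const measurable_jac
  have hpt : ∀ Z, ∫⁻ g, Ψ Z (labels Z (‖g‖⁻¹ • g)) ∂rowLaw (m + 2)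
      ≤ c * t * (φ (fstBlock Z) * φ (sndBlock Z)) + Bad.indicator (fun _ => 1) Z := by
    intro Z
    by_cases hZ : Z ∈ Bad
    · rw [Set.indicator_of_mem hZ]
      refine le_trans ?_ le_add_self
      refine le_trans (lintegral_mono (g := fun _ => 1) fun g => ?_) (by simp)
      exact mul_le_one' (hle _ _) (hle _ _)
    · have hZ' : jac Z ≤ t := not_lt.1 hZ
      refine le_trans ?_ le_self_add
      refine le_trans (pair_bound hm hk Z (G := Ψ Z) (hΨ.comp measurable_prodMk_left)
        (ne_top_of_le_ne_top ht hZ')) ?_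
      have hint : ∫⁻ y, Ψ Z y = φ (fstBlock Z) * φ (sndBlock Z) := by
        rw [volume_pi, lintegral_pi_append _ (f := fun y => Ψ Z y) (hΨ.comp measurable_prodMk_left)]
        simp only [φ, volume_pi]
        have hΦX : ∀ X, Measurable fun y => Φ X y := fun X => hΦ.comp measurable_prodMk_left
        rw [← lintegral_mul_const _ (hΦX _)]
        refine lintegral_congr fun y => ?_
        rw [← lintegral_const_mul _ (hΦX _)]
        refine lintegral_congr fun y' => ?_
        simp only [Ψ, fstBlock_append, sndBlock_append]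

      rw [hint, hcdef]
      gcongr
  refine le_trans (lintegral_mono hpt) ?_
  have hm2 : Measurable fun Z : Fin (k + k) → EuclideanSpace ℝ (Fin (m + 2)) =>
      φ (fstBlock Z) * φ (sndBlock Z) := (hφ.comp measurable_fstBlock).mul (hφ.comp measurable_sndBlock)
  rw [lintegral_add_left (hm2.const_mul _), lintegral_const_mul _ hm2,
    lintegral_indicator_const hBad, one_mul]
  refine le_of_eq (congrArg (fun z => c * t * z + Measure.pi (fun _ : Fin (k + k) => rowLaw (m + 2)) Bad) ?_)
  rw [lintegral_pi_append _ hm2, sq, ← lintegral_mul_const _ hφ]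
  refine lintegral_congr fun X => ?_
  rw [← lintegral_const_mul _ hφ]
  simp only [fstBlock_append, sndBlock_append]

lemma tsub_le_sq_div {h a : ℝ≥0∞} (ha0 : a ≠ 0) (hat : a ≠ ⊤) : h - a ≤ h ^ 2 / a := by
  rcases le_total h a with hle | hle
  · rw [tsub_eq_zero_of_le hle]; exact zero_le
  · calc h - a ≤ h := tsub_le_self
      _ = h * a / a := (ENNReal.mul_div_cancel_right ha0 hat).symm
      _ ≤ h ^ 2 / a := ENNReal.div_le_div_right (by rw [sq]; exact mul_le_mul_right hle h) a

/-- The pointwise part of the squaring step, for an abstract probability space of rows. -/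
lemma step_pointwise {α : Type*} [MeasurableSpace α] (μ : Measure α) [IsProbabilityMeasure μ]
    {K : Fin N → α → Fin N → ℝ≥0∞} (hK : ∀ w v, Measurable fun X => K w X v)
    (hK1 : ∀ w X, ∑ v, K w X v ≤ 1) {q : Fin N → ℝ≥0∞} (hq : ∑ w, q w ≤ 1) (π₀ : Fin N → ℝ≥0∞)
    {W : Set α} (hW : MeasurableSet W) {a : Fin N → ℝ≥0∞} (ha0 : ∀ v, a v ≠ 0)
    (hat : ∀ v, a v ≠ ⊤) {Λ lam : ℝ≥0∞} (hlam0 : lam ≠ 0) (hlamt : lam ≠ ⊤) (hΛt : Λ ≠ ⊤) :
    ∑ v, ((∑ w, q w * ∫⁻ X, K w X v ∂μ) - Λ * (lam * a v))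
      ≤ (∑ w, (q w - Λ * π₀ w)) + μ Wᶜ
        + Λ / lam * ∑ v, (∫⁻ X, W.indicator (fun X => ∑ w, π₀ w * K w X v) X ∂μ) ^ 2 / a v := by
  classical
  set h : Fin N → ℝ≥0∞ := fun v => ∫⁻ X, W.indicator (fun X => ∑ w, π₀ w * K w X v) X ∂μ
  set A : Fin N → ℝ≥0∞ := fun v => ∑ w, (q w - Λ * π₀ w) * ∫⁻ X, K w X v ∂μ
  set B : Fin N → ℝ≥0∞ := fun v => ∫⁻ X, Wᶜ.indicator (fun X => ∑ w, q w * K w X v) X ∂μ
  have hmq : ∀ v, Measurable fun X => ∑ w, q w * K w X v := fun v =>
    Finset.measurable_sum _ fun w _ => (hK w v).const_mul _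
  have h1 : ∀ v, (∑ w, q w * ∫⁻ X, K w X v ∂μ) ≤ A v + B v + Λ * h v := by
    intro v
    have hmA : ∀ w ∈ Finset.univ, Measurable fun X => (q w - Λ * π₀ w) * K w X v :=
      fun w _ => (hK w v).const_mul _
    simp only [A, B, h]
    rw [Finset.sum_congr rfl (fun w _ => (lintegral_const_mul (μ := μ) (q w) (hK w v)).symm),
      Finset.sum_congr rfl
        (fun w _ => (lintegral_const_mul (μ := μ) (q w - Λ * π₀ w) (hK w v)).symm),
      ← lintegral_finsetSum _ fun w _ => (hK w v).const_mul _,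
      ← lintegral_finsetSum _ hmA, ← lintegral_const_mul' _ _ hΛt,
      ← lintegral_add_left (Finset.measurable_sum _ hmA),
      ← lintegral_add_left ((Finset.measurable_sum _ hmA).fun_add ((hmq v).indicator hW.compl))]
    refine lintegral_mono fun X => ?_
    by_cases hw : X ∈ W
    · rw [Set.indicator_of_notMem (by simpa using hw), add_zero, Set.indicator_of_mem hw,
        Finset.mul_sum, ← Finset.sum_add_distrib]
      refine Finset.sum_le_sum fun w _ => ?_
      rw [← mul_assoc, ← add_mul]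
      exact mul_le_mul_left le_tsub_add _
    · rw [Set.indicator_of_mem (Set.mem_compl hw)]
      exact le_trans le_add_self le_self_add
  have h2 : ∑ v, A v ≤ ∑ w, (q w - Λ * π₀ w) := by
    simp only [A]
    rw [Finset.sum_comm]
    refine Finset.sum_le_sum fun w _ => ?_
    rw [← Finset.mul_sum, ← lintegral_finsetSum _ fun v _ => hK w v]
    exact mul_le_of_le_one_right' (le_trans (lintegral_mono fun X => hK1 w X) (by simp))
  have h3 : ∑ v, B v ≤ μ Wᶜ := by
    simp only [B]
    rw [← lintegral_finsetSum _ fun v _ => (hmq v).indicator hW.compl, ← lintegral_indicator_one hW.compl]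
    refine lintegral_mono fun X => ?_
    by_cases hw : X ∈ Wᶜ
    · simp only [Set.indicator_of_mem hw, Pi.one_apply]
      rw [Finset.sum_comm]
      refine le_trans (Finset.sum_le_sum fun w _ => ?_) hq
      rw [← Finset.mul_sum]
      exact mul_le_of_le_one_right' (hK1 w X)
    · simp [Set.indicator_of_notMem hw]
  have h4 : ∀ v, Λ * h v - Λ * (lam * a v) ≤ Λ / lam * (h v ^ 2 / a v) := by
    intro v
    rw [← ENNReal.mul_sub fun _ _ => hΛt]
    refine le_trans (mul_le_mul_right (tsub_le_sq_div (mul_ne_zero hlam0 (ha0 v))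
      (ENNReal.mul_ne_top hlamt (hat v))) _) (le_of_eq ?_)
    simp only [div_eq_mul_inv, ENNReal.mul_inv (Or.inl hlam0) (Or.inl hlamt)]
    ring
  calc _ ≤ ∑ v, (A v + B v + Λ / lam * (h v ^ 2 / a v)) := Finset.sum_le_sum fun v _ =>
        (tsub_le_tsub_right (h1 v) _).trans (add_tsub_le_assoc.trans (add_le_add_right (h4 v) _))
    _ ≤ _ := by
        rw [Finset.sum_add_distrib, Finset.sum_add_distrib, ← Finset.mul_sum]
        gcongr

/-- The squaring step. -/
theorem phase_step (hm : 0 < m) (hk : k + k ≤ m) (hN : 1 ≤ N)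
    {Q : EuclideanSpace ℝ (Fin (m + 2)) → Fin N → ℝ≥0∞} (hQm : ∀ w, Measurable fun s => Q s w)
    (hQ1 : ∀ g, ∑ w, Q (‖g‖⁻¹ • g) w ≤ 1) {π₀ : Fin N → ℝ≥0∞} (hπ : ∑ w, π₀ w ≤ 1)
    {blk : Fin N → (Fin k → EuclideanSpace ℝ (Fin (m + 2))) → (Fin k → ℝ) → Fin N → ℝ≥0∞}
    (hb : ∀ w v, Measurable fun p : (Fin k → EuclideanSpace ℝ (Fin (m + 2))) × (Fin k → ℝ) =>
      blk w p.1 p.2 v) (hb1 : ∀ w X y, ∑ v, blk w X y v ≤ 1) {Λ lam t : ℝ≥0∞}
    (hlam0 : lam ≠ 0) (hlamt : lam ≠ ⊤) (hΛt : Λ ≠ ⊤) (ht : t ≠ ⊤)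
    (hbad : (N:ℝ≥0∞) ^ 2 * Measure.pi (fun _ : Fin (k + k) => rowLaw (m + 2)) {Z | t < jac Z} ≤ 1) :
    ∃ π₁ : Fin N → ℝ≥0∞, (∑ v, π₁ v ≤ 1) ∧
      ∫⁻ g, ∑ v, ((∑ w, Q (‖g‖⁻¹ • g) w
          * ∫⁻ X, blk w X (labels X (‖g‖⁻¹ • g)) v ∂Measure.pi (fun _ => rowLaw (m + 2)))
          - Λ * lam * (volume (window k) + 1) * π₁ v) ∂rowLaw (m + 2)
      ≤ (∫⁻ g, ∑ w, (Q (‖g‖⁻¹ • g) w - Λ * π₀ w) ∂rowLaw (m + 2))
        + ENNReal.ofReal ((3/4) ^ k)
        + Λ / lam * (ENNReal.ofReal (2 * 3 ^ (m + 2) * (√((m:ℝ) + 2) / √(2 * π)) ^ (k + k)) * t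
            * volume (window k) + 1) := by
  classical
  set γd := rowLaw (m + 2)
  set μ := Measure.pi (fun _ : Fin k => γd)
  set c := ENNReal.ofReal (2 * 3 ^ (m + 2) * (√((m:ℝ) + 2) / √(2 * π)) ^ (k + k)) * t
  set P := Measure.pi (fun _ : Fin (k + k) => rowLaw (m + 2)) {Z | t < jac Z}
  set V := volume (window k)
  have hV : V ≠ ⊤ := ne_top_of_le_ne_top ENNReal.ofReal_ne_top (volume_window_le k)
  set p : Fin N → ℝ≥0∞ := fun v => ∫⁻ X, ∫⁻ y, mix π₀ blk v X y ∂volume ∂μ
  set η : ℝ≥0∞ := (N:ℝ≥0∞)⁻¹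
  set μv : Fin N → ℝ≥0∞ := fun v => max (p v) η
  have hmix1 : ∀ X y, ∑ v, mix π₀ blk v X y ≤ (window k).indicator (fun _ => 1) y := by
    intro X y
    simp only [mix, Set.indicator_apply]
    split_ifs
    · rw [Finset.sum_comm]
      refine le_trans (Finset.sum_le_sum fun w _ => ?_) hπ
      rw [← Finset.mul_sum]
      exact mul_le_of_le_one_right' (hb1 w X y)
    · simp
  have hle : ∀ v X y, mix π₀ blk v X y ≤ 1 := fun v X y =>
    le_trans (Finset.single_le_sum (f := fun i => mix π₀ blk i X y) (fun i _ => zero_le)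
      (Finset.mem_univ v))
      ((hmix1 X y).trans (Set.indicator_le_self' (fun _ _ => zero_le) _))
  have hmixX : ∀ v X, Measurable fun y => mix π₀ blk v X y := fun v X => by
    have h := (measurable_mix (π₀ := π₀) hb v).comp (measurable_prodMk_left (x := X))
    exact h
  have hpsum : ∑ v, p v ≤ V := by
    simp only [p]
    rw [← lintegral_finsetSum _ fun v _ => (measurable_mix hb v).lintegral_prod_right']
    refine le_trans (lintegral_mono (g := fun _ => V) fun X => ?_) (by simp)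
    simp only
    rw [← lintegral_finsetSum _ fun v _ => hmixX v X]
    refine le_trans (lintegral_mono (hmix1 X)) ?_
    rw [lintegral_indicator_const (measurableSet_window k), one_mul]
  have hN0 : (N:ℝ≥0∞) ≠ 0 := by simp; omega
  have hη0 : η ≠ 0 := ENNReal.inv_ne_zero.2 (ENNReal.natCast_ne_top N)
  have hμ0 : ∀ v, μv v ≠ 0 := fun v => ne_of_gt (lt_max_of_lt_right (pos_iff_ne_zero.2 hη0))
  have hμsum : ∑ v, μv v ≤ V + 1 := by
    refine le_trans (Finset.sum_le_sum (g := fun v => p v + η) fun v _ =>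
      max_le le_self_add le_add_self) ?_
    rw [Finset.sum_add_distrib, Finset.sum_const, Finset.card_univ, Fintype.card_fin, nsmul_eq_mul,
      ENNReal.mul_inv_cancel hN0 (ENNReal.natCast_ne_top N)]
    gcongr
  have hμt : ∀ v, μv v ≠ ⊤ := fun v => ne_top_of_le_ne_top (by simp [hV])
    ((Finset.single_le_sum (fun i _ => zero_le) (Finset.mem_univ v)).trans hμsum)
  have hV1 : V + 1 ≠ 0 := by simp
  refine ⟨fun v => μv v / (V + 1), ?_, ?_⟩
  · simp only [div_eq_mul_inv, ← Finset.sum_mul]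
    exact le_trans (mul_le_mul_left hμsum _) (by
      rw [ENNReal.mul_inv_cancel hV1 (by simp [hV])])
  have hscale : ∀ v, Λ * lam * (V + 1) * (μv v / (V + 1)) = Λ * (lam * μv v) := by
    intro v
    rw [mul_assoc (Λ * lam), ENNReal.mul_div_cancel hV1 (by simp [hV]), mul_assoc]
  simp only [hscale]
  set H : Fin N → EuclideanSpace ℝ (Fin (m + 2)) → ℝ≥0∞ := fun v g =>
    ∫⁻ X, mix π₀ blk v X (labels X (‖g‖⁻¹ • g)) ∂μ
  set Bt : EuclideanSpace ℝ (Fin (m + 2)) → ℝ≥0∞ := fun g =>
    ∫⁻ X, (window k)ᶜ.indicator (fun _ => (1:ℝ≥0∞)) (labels X (‖g‖⁻¹ • g)) ∂μ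
  have hlabX : ∀ s : EuclideanSpace ℝ (Fin (m + 2)), Measurable fun X :
      Fin k → EuclideanSpace ℝ (Fin (m + 2)) => labels X s :=
    fun s => measurable_labels.comp measurable_prodMk_right
  have hbs : ∀ w v s, Measurable fun X => blk w X (labels X s) v := fun w v s =>
    (hb w v).comp (measurable_id.prodMk (hlabX s))
  have hpt : ∀ g, (∑ v, ((∑ w, Q (‖g‖⁻¹ • g) w * ∫⁻ X, blk w X (labels X (‖g‖⁻¹ • g)) v ∂μ)
        - Λ * (lam * μv v)))
      ≤ (∑ w, (Q (‖g‖⁻¹ • g) w - Λ * π₀ w)) + Bt g + Λ / lam * ∑ v, H v g ^ 2 / μv v := by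
    intro g
    have hW : MeasurableSet ((fun X => labels X (‖g‖⁻¹ • g)) ⁻¹' window k) :=
      hlabX _ (measurableSet_window k)
    refine (step_pointwise μ (K := fun w X v => blk w X (labels X (‖g‖⁻¹ • g)) v)
      (fun w v => hbs w v _) (fun w X => hb1 w X _) (hQ1 g) π₀ hW hμ0 hμt hlam0 hlamt hΛt).trans
      (le_of_eq ?_)
    rw [← lintegral_indicator_one hW.compl]
    rfl
  refine le_trans (lintegral_mono hpt) ?_
  have hnorm : Measurable fun g : EuclideanSpace ℝ (Fin (m + 2)) => ‖g‖⁻¹ • g := by fun_prop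
  have hin : Measurable fun q : EuclideanSpace ℝ (Fin (m + 2)) ×
      (Fin k → EuclideanSpace ℝ (Fin (m + 2))) => (q.2, labels q.2 (‖q.1‖⁻¹ • q.1)) :=
    measurable_snd.prodMk (measurable_labels.comp
      (measurable_snd.prodMk (hnorm.comp measurable_fst)))
  have hHm : ∀ v, Measurable (H v) := fun v => by
    have h := (measurable_mix (π₀ := π₀) hb v).comp hin
    have h' := Measurable.lintegral_prod_right' (ν := μ) h
    exact h'
  have hH2 : ∀ v, Measurable fun g => H v g ^ 2 / μv v := fun v =>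
    ((hHm v).pow_const 2).div_const _
  rw [lintegral_add_right _ ((Finset.measurable_sum _ fun v _ => hH2 v).const_mul _)]
  refine add_le_add ?_ ?_
  · have hE : Measurable fun g => ∑ w, (Q (‖g‖⁻¹ • g) w - Λ * π₀ w) :=
      Finset.measurable_sum _ fun w _ => ((hQm w).comp hnorm).sub_const _
    rw [lintegral_add_left hE]
    gcongr
    refine le_trans (lintegral_mono fun g => window_compl_le (d := m + 1) g) ?_
    simp [γd]
  rw [lintegral_const_mul _ (Finset.measurable_sum _ fun v _ => hH2 v),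
    lintegral_finsetSum _ fun v _ => hH2 v]
  gcongr
  calc ∑ v, ∫⁻ g, H v g ^ 2 / μv v ∂γd ≤ ∑ v, (c * p v + P * (N:ℝ≥0∞)) := by
        refine Finset.sum_le_sum fun v _ => ?_
        simp only [div_eq_mul_inv]
        rw [lintegral_mul_const _ ((hHm v).pow_const 2)]
        refine le_trans (mul_le_mul_left (second_moment hm hk (measurable_mix hb v) (hle v) ht) _) ?_
        rw [add_mul]
        refine add_le_add ?_ ?_
        · change c * p v ^ 2 * (μv v)⁻¹ ≤ c * p v
          rw [mul_assoc]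
          refine mul_le_mul_right ?_ _
          rw [sq, mul_assoc]
          refine mul_le_of_le_one_right' ?_
          rw [← div_eq_mul_inv]
          exact ENNReal.div_le_of_le_mul (by rw [one_mul]; exact le_max_left _ _)
        · refine mul_le_mul_right ?_ _
          rw [ENNReal.inv_le_iff_inv_le]
          exact le_max_right _ _
    _ ≤ c * V + 1 := by
        rw [Finset.sum_add_distrib, ← Finset.mul_sum, Finset.sum_const, Finset.card_univ,
          Fintype.card_fin, nsmul_eq_mul]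
        refine add_le_add (mul_le_mul_right hpsum _) (le_trans (le_of_eq ?_) hbad)
        ring

end Vale.Agent.P309
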