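import Vale.Agent.P309.Basic
import Mathlib.MeasureTheory.Measure.Lebesgue.EqHaar
import Mathlib.Analysis.Complex.ExponentialBounds

/-! Comparison of the uniform law on the sphere with the scaled normal law. -/

namespace Vale.Agent.P309

open MeasureTheory ProbabilityTheory Real WithLp
open scoped ENNReal NNReal RealInnerProductSpace

lemma lintegral_scale {m : ℕ} {r : ℝ} (hr : 0 < r) {F : (Fin m → ℝ) → ℝ≥0∞} (hF : Measurable F) :
    ∫⁻ w, F w = ENNReal.ofReal (r ^ m) * ∫⁻ u, F (r • u) := by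
  have h := Measure.map_addHaar_smul (volume : Measure (Fin m → ℝ)) hr.ne'
  rw [← lintegral_map hF (measurable_const_smul r), h, lintegral_smul_measure, smul_eq_mul,
    ← mul_assoc, ← ENNReal.ofReal_mul (by positivity), Module.finrank_fin_fun,
    abs_of_pos (by positivity), mul_inv_cancel₀ (by positivity), ENNReal.ofReal_one, one_mul]

lemma lintegral_radial_weight {m : ℕ} (hm : 0 < m) :
    ∫⁻ R in Set.Ioi (0:ℝ), ENNReal.ofReal (Real.exp (-R / 2) / 2 * √R ^ m)
      ≤ ENNReal.ofReal (2 * √(2 * m) ^ m) := by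
  have hm' : (0:ℝ) < m := by exact_mod_cast hm
  calc ∫⁻ R in Set.Ioi (0:ℝ), ENNReal.ofReal (Real.exp (-R / 2) / 2 * √R ^ m)
      ≤ ∫⁻ R in Set.Ioi (0:ℝ), ENNReal.ofReal (√(2 * m) ^ m / 2 * Real.exp (-(1/4) * R)) := by
        refine setLIntegral_mono (by fun_prop) fun R hR => ENNReal.ofReal_le_ofReal ?_
        rw [Set.mem_Ioi] at hR
        have h1 : √R ≤ √(2 * m) * Real.exp (R / (4 * m)) := by
          have h2 : R ≤ 2 * m * Real.exp (R / (2 * m)) := by
            have := Real.add_one_le_exp (R / (2 * m))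
            have h3 : R / (2 * m) ≤ Real.exp (R / (2 * m)) := by linarith
            rw [div_le_iff₀ (by positivity)] at h3
            linarith
          calc √R ≤ √(2 * m * Real.exp (R / (2 * m))) := Real.sqrt_le_sqrt h2
            _ = √(2 * m) * Real.exp (R / (4 * m)) := by
              rw [Real.sqrt_mul (by positivity), ← Real.exp_half]
              congr 2
              field_simp; ring
        have h4 : √R ^ m ≤ √(2 * m) ^ m * Real.exp (R / 4) := by
          calc √R ^ m ≤ (√(2 * m) * Real.exp (R / (4 * m))) ^ m :=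
                pow_le_pow_left₀ (Real.sqrt_nonneg _) h1 m
            _ = _ := by
              rw [mul_pow, ← Real.exp_nat_mul]
              congr 2
              field_simp
        calc Real.exp (-R / 2) / 2 * √R ^ m
            ≤ Real.exp (-R / 2) / 2 * (√(2 * m) ^ m * Real.exp (R / 4)) :=
              mul_le_mul_of_nonneg_left h4 (by positivity)
          _ = √(2 * m) ^ m / 2 * (Real.exp (-R / 2) * Real.exp (R / 4)) := by ring
          _ = _ := by
              rw [← Real.exp_add]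
              congr 2
              ring
    _ = ENNReal.ofReal (∫ R in Set.Ioi (0:ℝ), √(2 * m) ^ m / 2 * Real.exp (-(1/4) * R)) := by
        rw [ofReal_integral_eq_lintegral_ofReal
          ((integrableOn_exp_mul_Ioi (by norm_num) 0).const_mul _)
          (ae_of_all _ fun R => by positivity)]
    _ = _ := by
        rw [integral_const_mul, integral_exp_mul_Ioi (by norm_num)]
        congr 1
        norm_num
        ring

/-- A function invariant along two orthonormal directions: its mean under the uniform law on the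
sphere is at most exponentially more than its mean under the scaled normal law. -/
theorem dom {m : ℕ} (hm : 0 < m) {f : EuclideanSpace ℝ (Fin (m + 2)) → ℝ≥0∞} (hf : Measurable f)
    {e e' : EuclideanSpace ℝ (Fin (m + 2))} (he : ‖e‖ = 1) (he' : ‖e'‖ = 1) (hee : ⟪e, e'⟫ = 0)
    (hinv : ∀ g, ∀ a b : ℝ, f (g + a • e + b • e') = f g) :
    ∫⁻ g, f (‖g‖⁻¹ • g) ∂stdGaussian (EuclideanSpace ℝ (Fin (m + 2)))
      ≤ ENNReal.ofReal (2 * 3 ^ (m + 2))
        * ∫⁻ g, f ((√((m:ℝ) + 2))⁻¹ • g) ∂stdGaussian (EuclideanSpace ℝ (Fin (m + 2))) := by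
  classical
  set v : Fin (m + 2) → EuclideanSpace ℝ (Fin (m + 2)) := Fin.cons e (Fin.cons e' fun _ => 0)
  have hv : Orthonormal ℝ (({0, 1} : Set (Fin (m + 2))).domRestrict v) := by
    rw [orthonormal_iff_ite]
    have hne : (0 : Fin (m + 2)) ≠ 1 := Fin.zero_ne_one
    rintro ⟨i, hi⟩ ⟨j, hj⟩
    have h0 : v 0 = e := rfl
    have h1 : v 1 = e' := rfl
    rcases hi with rfl | rfl <;> rcases hj with rfl | rfl <;>
      simp [Set.domRestrict, h0, h1, he, he', hee, real_inner_comm e e', hne, hne.symm, Subtype.ext_iff]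
  obtain ⟨b, hb⟩ := hv.exists_orthonormalBasis_extension_of_card_eq (by simp) (v := v)
  have hb0 : b 0 = e := hb 0 (by simp)
  have hb1 : b 1 = e' := hb 1 (by simp)
  set L : (Fin m → ℝ) → EuclideanSpace ℝ (Fin (m + 2)) := fun w => ∑ i, w i • b i.succ.succ
  set h : (Fin m → ℝ) → ℝ≥0∞ := fun w => f (L w)
  have hhm : Measurable h := hf.comp (by fun_prop)
  set S : (Fin m → ℝ) → ℝ := fun w => ∑ i, w i ^ 2
  have hSm : Measurable S := by fun_prop
  have hS0 : ∀ w, 0 ≤ S w := fun w => Finset.sum_nonneg fun i _ => sq_nonneg _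
  set P : (Fin (m + 2) → ℝ) → EuclideanSpace ℝ (Fin (m + 2)) := fun x => ∑ i, x i • b i
  have hPm : Measurable P := by fun_prop
  have hPcons : ∀ (c u u' : ℝ) (w : Fin m → ℝ),
      f (c • P (Fin.cons u (Fin.cons u' w))) = h (c • w) := by
    intro c u u' w
    have : c • P (Fin.cons u (Fin.cons u' w)) = L (c • w) + (c * u) • e + (c * u') • e' := by
      simp only [P, L, Fin.sum_univ_succ, Fin.cons_zero, Fin.cons_succ, Fin.succ_zero_eq_one,
        hb0, hb1, smul_add, Finset.smul_sum, smul_smul, Pi.smul_apply, smul_eq_mul]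
      rw [show (Fin.cons u (Fin.cons u' w) : Fin (m + 2) → ℝ) 1 = u' from rfl]
      abel
    rw [this, hinv]
  have hPnorm : ∀ (u u' : ℝ) (w : Fin m → ℝ),
      ‖P (Fin.cons u (Fin.cons u' w))‖ = √(u ^ 2 + u' ^ 2 + S w) := by
    intro u u' w
    rw [← Real.sqrt_sq (norm_nonneg (P _)), ← real_inner_self_eq_norm_sq]
    congr 1
    simp only [P, b.orthonormal.inner_sum, conj_trivial]
    simp [Fin.sum_univ_succ, S, sq, add_assoc]
  set c : ℝ := (√(2 * π))⁻¹ ^ m
  have hc : 0 ≤ c := by positivity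
  -- the integral over the unit ball
  set I : ℝ≥0∞ := ∫⁻ w, if S w < 1 then h w else 0
  set s : ℝ := √((m:ℝ) + 2)
  have hs : 0 < s := by positivity
  -- lower bound on the scaled normal mean
  have hrhs : ENNReal.ofReal (c * s ^ m * Real.exp (-((m:ℝ) + 2) / 2)) * I
      ≤ ∫⁻ g, f (s⁻¹ • g) ∂stdGaussian (EuclideanSpace ℝ (Fin (m + 2))) := by
    have hk : Measurable fun g : EuclideanSpace ℝ (Fin (m + 2)) => f (s⁻¹ • g) :=
      hf.comp (measurable_const_smul _)
    rw [stdGaussian_eq_map_pi_orthonormalBasis b, lintegral_map hk hPm]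
    change _ ≤ ∫⁻ x : Fin (m + 1 + 1) → ℝ, f (s⁻¹ • P x) ∂Measure.pi (fun _ => G1)
    rw [lintegral_pi_succ G1 (f := fun x => f (s⁻¹ • P x)) (hk.comp hPm)]
    have hinner : ∀ u : ℝ, ∫⁻ y, f (s⁻¹ • P (Fin.cons u y)) ∂Measure.pi (fun _ => G1)
        = ∫⁻ w, h (s⁻¹ • w) ∂Measure.pi (fun _ => G1) := by
      intro u
      rw [lintegral_pi_succ G1 (by fun_prop)]
      simp [hPcons]
    simp only [hinner, lintegral_const, measure_univ, mul_one]
    rw [lintegral_pi_G1 (by fun_prop : Measurable fun w => h (s⁻¹ • w)),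
      lintegral_scale hs (by unfold pdf1; fun_prop)]
    simp only [inv_smul_smul₀ hs.ne']
    rw [ENNReal.ofReal_mul (by positivity), ENNReal.ofReal_mul hc, mul_comm (ENNReal.ofReal c),
      mul_assoc, mul_assoc]
    refine mul_le_mul_right ?_ _
    rw [← mul_assoc, ← ENNReal.ofReal_mul hc, ← lintegral_const_mul' _ _ ENNReal.ofReal_ne_top]
    refine lintegral_mono fun u => ?_
    simp only
    split_ifs with hu
    · rw [← ENNReal.ofReal_prod_of_nonneg fun i _ => pdf1_nonneg _]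
      gcongr
      rw [prod_pdf1]
      simp only [Pi.smul_apply, smul_eq_mul, mul_pow, ← Finset.mul_sum]
      refine mul_le_mul_of_nonneg_left (Real.exp_le_exp.2 ?_) hc
      have h1 : s ^ 2 = (m:ℝ) + 2 := Real.sq_sqrt (by positivity)
      have h2 : s ^ 2 * S u ≤ (m:ℝ) + 2 := by nlinarith
      show -((m:ℝ) + 2) / 2 ≤ -(s ^ 2 * S u) / 2
      linarith
    · simp
  -- the sphere mean, as an integral over the squared radius
  set Q : ℝ → (Fin m → ℝ) → ℝ≥0∞ := fun R w =>
    if S w < R then ENNReal.ofReal (Real.exp (-R / 2) / 2) * h ((√R)⁻¹ • w) else 0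
  have hQm : Measurable (Function.uncurry Q) := by
    refine Measurable.ite (measurableSet_lt (hSm.comp measurable_snd) measurable_fst) ?_
      measurable_const
    exact (Measurable.ennreal_ofReal (by fun_prop)).mul (hhm.comp (by fun_prop))
  have hlhs : ∫⁻ g, f (‖g‖⁻¹ • g) ∂stdGaussian (EuclideanSpace ℝ (Fin (m + 2)))
      = ENNReal.ofReal c * ∫⁻ R, ∫⁻ w, Q R w := by
    have hn : Measurable fun g : EuclideanSpace ℝ (Fin (m + 2)) => f (‖g‖⁻¹ • g) :=
      hf.comp (by fun_prop)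
    rw [stdGaussian_eq_map_pi_orthonormalBasis b, lintegral_map hn hPm]
    change ∫⁻ x : Fin (m + 1 + 1) → ℝ, f (‖P x‖⁻¹ • P x) ∂Measure.pi (fun _ => G1) = _
    rw [lintegral_pi_succ G1 (f := fun x => f (‖P x‖⁻¹ • P x)) (hn.comp hPm)]
    set φ : ℝ → ℝ≥0∞ := fun r => ∫⁻ w, h ((√(r + S w))⁻¹ • w) ∂Measure.pi (fun _ => G1)
    have hφ2 : Measurable fun p : ℝ × (Fin m → ℝ) => h ((√(p.1 + S p.2))⁻¹ • p.2) :=
      hhm.comp (by fun_prop)
    have hinner : ∀ u : ℝ, ∫⁻ y, f (‖P (Fin.cons u y)‖⁻¹ • P (Fin.cons u y))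
        ∂Measure.pi (fun _ => G1) = ∫⁻ u', φ (u ^ 2 + u' ^ 2) ∂G1 := by
      intro u
      rw [lintegral_pi_succ G1 (by fun_prop)]
      simp [hPcons, hPnorm, φ]
    simp only [hinner]
    rw [lintegral_plane (φ := φ) hφ2.lintegral_prod_right']
    have hφe : ∀ r, φ r = ∫⁻ w, ENNReal.ofReal (c * Real.exp (-(S w) / 2))
        * h ((√(r + S w))⁻¹ • w) := by
      intro r
      simp only [φ]
      rw [lintegral_pi_G1 (f := fun w => h ((√(r + S w))⁻¹ • w)) (hhm.comp (by fun_prop))]
      refine lintegral_congr fun w => ?_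
      rw [← ENNReal.ofReal_prod_of_nonneg fun i _ => pdf1_nonneg _, prod_pdf1]
    have hQr : Measurable fun p : ℝ × (Fin m → ℝ) => ENNReal.ofReal (Real.exp (-p.1 / 2) / 2)
        * (ENNReal.ofReal (c * Real.exp (-(S p.2) / 2)) * h ((√(p.1 + S p.2))⁻¹ • p.2)) :=
      (Measurable.ennreal_ofReal (by fun_prop)).mul
        ((Measurable.ennreal_ofReal (by fun_prop)).mul hφ2)
    calc ∫⁻ r in Set.Ioi (0:ℝ), ENNReal.ofReal (Real.exp (-r / 2) / 2) * φ r
        = ∫⁻ r in Set.Ioi (0:ℝ), ∫⁻ w, ENNReal.ofReal (Real.exp (-r / 2) / 2)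
          * (ENNReal.ofReal (c * Real.exp (-(S w) / 2)) * h ((√(r + S w))⁻¹ • w)) := by
          simp only [hφe, lintegral_const_mul' _ _ ENNReal.ofReal_ne_top]
      _ = ∫⁻ w, ∫⁻ r in Set.Ioi (0:ℝ), ENNReal.ofReal (Real.exp (-r / 2) / 2)
          * (ENNReal.ofReal (c * Real.exp (-(S w) / 2)) * h ((√(r + S w))⁻¹ • w)) :=
          lintegral_lintegral_swap hQr.aemeasurable
      _ = ∫⁻ w, ENNReal.ofReal c * ∫⁻ R, Q R w := by
          refine lintegral_congr fun w => ?_
          rw [← lintegral_indicator measurableSet_Ioi, ← lintegral_const_mul' _ _ ENNReal.ofReal_ne_top,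
            ← lintegral_add_right_eq_self (fun R => ENNReal.ofReal c * Q R w) (S w)]
          refine lintegral_congr fun r => ?_
          simp only [Set.indicator_apply, Set.mem_Ioi, Q, lt_add_iff_pos_left]
          split_ifs
          · rw [← mul_assoc, ← mul_assoc, ← ENNReal.ofReal_mul (by positivity),
              ← ENNReal.ofReal_mul hc, neg_add, add_div, Real.exp_add]
            congr 2
            ring
          · simp
      _ = ENNReal.ofReal c * ∫⁻ R, ∫⁻ w, Q R w := by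
          rw [lintegral_const_mul' _ _ ENNReal.ofReal_ne_top,
            lintegral_lintegral_swap hQm.aemeasurable]
  have hQR : ∀ R, ∫⁻ w, Q R w
      = (Set.Ioi (0:ℝ)).indicator (fun R => ENNReal.ofReal (Real.exp (-R / 2) / 2 * √R ^ m)) R
        * I := by
    intro R
    by_cases hR : 0 < R
    · rw [Set.indicator_of_mem (by exact hR)]
      rw [lintegral_scale (F := fun w => Q R w) (Real.sqrt_pos.2 hR)
          (hQm.comp measurable_prodMk_left),
        ENNReal.ofReal_mul (by positivity), mul_comm (ENNReal.ofReal (Real.exp (-R / 2) / 2)),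
        mul_assoc, ← lintegral_const_mul' (r := ENNReal.ofReal (Real.exp (-R / 2) / 2)) _
          ENNReal.ofReal_ne_top]
      congr 1
      refine lintegral_congr fun u => ?_
      have hSu : S (√R • u) = R * S u := by
        simp only [S, Pi.smul_apply, smul_eq_mul, mul_pow, Real.sq_sqrt hR.le, Finset.mul_sum]
      have hiff : S (√R • u) < R ↔ S u < 1 := by
        rw [hSu]; constructor <;> intro H <;> nlinarith
      simp only [Q, hiff, inv_smul_smul₀ (Real.sqrt_pos.2 hR).ne']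
      split_ifs <;> simp [mul_comm]
    · rw [Set.indicator_of_notMem (by simpa using hR), zero_mul]
      refine (lintegral_congr fun w => ?_).trans lintegral_zero
      simp only [Q]
      rw [if_neg]
      linarith [hS0 w, not_lt.1 hR]
  rw [hlhs]
  simp only [hQR]
  rw [lintegral_mul_const _ ((Measurable.ennreal_ofReal (by fun_prop)).indicator measurableSet_Ioi),
    lintegral_indicator measurableSet_Ioi]
  refine le_trans ?_ (mul_le_mul_right hrhs _)
  rw [← mul_assoc, ← mul_assoc, ← ENNReal.ofReal_mul (by positivity)]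
  refine mul_le_mul_left ?_ _
  refine le_trans (mul_le_mul_right (lintegral_radial_weight hm) _) ?_
  rw [← ENNReal.ofReal_mul hc]
  refine ENNReal.ofReal_le_ofReal ?_
  have h1 : √(2 * m) ^ m ≤ (3/2) ^ m * s ^ m := by
    rw [← mul_pow]
    refine pow_le_pow_left₀ (Real.sqrt_nonneg _) ?_ m
    rw [Real.sqrt_mul (by norm_num)]
    refine mul_le_mul (by rw [Real.sqrt_le_iff]; norm_num)
      (Real.sqrt_le_sqrt (by linarith)) (Real.sqrt_nonneg _) (by norm_num)
  have h2 : Real.exp (((m:ℝ) + 2) / 2) ≤ 2 ^ (m + 2) := by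
    rw [show ((m:ℝ) + 2) / 2 = ((m + 2 : ℕ) : ℝ) * (1/2) by push_cast; ring, Real.exp_nat_mul]
    refine pow_le_pow_left₀ (Real.exp_pos _).le ?_ _
    have := Real.exp_one_lt_d9
    rw [Real.exp_half, Real.sqrt_le_iff]
    constructor <;> linarith
  have h3 : (2:ℝ) ^ (m + 2) * (3/2) ^ m ≤ 3 ^ (m + 2) := by
    calc (2:ℝ) ^ (m + 2) * (3/2) ^ m ≤ 2 ^ (m + 2) * (3/2) ^ (m + 2) :=
          mul_le_mul_of_nonneg_left (pow_le_pow_right₀ (by norm_num) (by omega)) (by positivity)
      _ = 3 ^ (m + 2) := by rw [← mul_pow]; norm_num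
  have h4 : Real.exp (-((m:ℝ) + 2) / 2) = (Real.exp (((m:ℝ) + 2) / 2))⁻¹ := by
    rw [← Real.exp_neg]; ring_nf
  rw [h4]
  have hE := Real.exp_pos (((m:ℝ) + 2) / 2)
  calc c * (2 * √(2 * m) ^ m)
      ≤ c * (2 * ((3/2) ^ m * s ^ m)) := by gcongr
    _ = 2 * ((3/2) ^ m * Real.exp (((m:ℝ) + 2) / 2))
        * (c * s ^ m * (Real.exp (((m:ℝ) + 2) / 2))⁻¹) := by field_simp
    _ ≤ 2 * 3 ^ (m + 2) * (c * s ^ m * (Real.exp (((m:ℝ) + 2) / 2))⁻¹) := by
        gcongr
        calc (3/2:ℝ) ^ m * Real.exp (((m:ℝ) + 2) / 2) ≤ (3/2) ^ m * 2 ^ (m + 2) :=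
              mul_le_mul_of_nonneg_left h2 (by positivity)
          _ ≤ _ := by linarith

/-- A cap of chordal radius `ε` about any point has uniform mass at most `C ^ d ε ^ (d - 2)`. -/
theorem cap_le {m : ℕ} (hm : 2 ≤ m) (o : EuclideanSpace ℝ (Fin (m + 2))) {ε : ℝ} (hε : 0 < ε) :
    ∫⁻ g, {s | ‖o - s‖ ≤ ε}.indicator (fun _ => (1:ℝ≥0∞)) (‖g‖⁻¹ • g) ∂stdGaussian (EuclideanSpace ℝ (Fin (m + 2)))
      ≤ ENNReal.ofReal (2 * 3 ^ (m + 2) * (3 * ε) ^ m) := by
  classical
  set A : Set (EuclideanSpace ℝ (Fin (m + 2))) :=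
    {g | ∑ i : Fin m, (g i.succ.succ - o i.succ.succ) ^ 2 ≤ ε ^ 2}
  have hA : MeasurableSet A := measurableSet_le (by fun_prop) measurable_const
  have hinv : ∀ g, ∀ a b : ℝ, A.indicator (fun _ => (1:ℝ≥0∞))
      (g + a • EuclideanSpace.single 0 1 + b • EuclideanSpace.single 1 1)
      = A.indicator (fun _ => 1) g := by
    intro g a b
    have : g + a • EuclideanSpace.single 0 1 + b • EuclideanSpace.single 1 1 ∈ A ↔ g ∈ A := by
      simp [A, Fin.ext_iff]
    simp only [Set.indicator_apply, this]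
  have hsub : {s | ‖o - s‖ ≤ ε} ⊆ A := by
    intro s hs
    have hs' : ‖o - s‖ ≤ ε := hs
    simp only [A, Set.mem_ofPred_eq]
    refine le_trans ?_ (pow_le_pow_left₀ (norm_nonneg _) hs' 2)
    rw [EuclideanSpace.real_norm_sq_eq, Fin.sum_univ_succ, Fin.sum_univ_succ]
    have h0 := sq_nonneg ((o - s) 0)
    have h1 := sq_nonneg ((o - s) (Fin.succ 0))
    have h2 : ∀ i : Fin m, (s i.succ.succ - o i.succ.succ) ^ 2 = ((o - s) i.succ.succ) ^ 2 := by
      intro i; simp; ring
    simp only [h2]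
    linarith
  refine le_trans (lintegral_mono fun g => Set.indicator_le_indicator_of_subset hsub
    (fun _ => zero_le) _) ?_
  refine le_trans (dom (by omega) ((measurable_const (a := (1:ℝ≥0∞))).indicator hA)
    (e := EuclideanSpace.single 0 1) (e' := EuclideanSpace.single 1 1) (by simp) (by simp)
    (by simp [EuclideanSpace.inner_single_left]) hinv) ?_
  rw [ENNReal.ofReal_mul (show (0:ℝ) ≤ 2 * 3 ^ (m + 2) by positivity)]
  refine mul_le_mul_right ?_ _
  set s : ℝ := √((m:ℝ) + 2)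
  have hs : 0 < s := by positivity
  have hs2 : s ^ 2 = (m:ℝ) + 2 := Real.sq_sqrt (by positivity)
  have hmR : (2:ℝ) ≤ m := by exact_mod_cast hm
  set q : Fin m → ℝ → ℝ≥0∞ := fun i t =>
    ENNReal.ofReal (Real.exp (1/2 - (m:ℝ) * (s⁻¹ * t - o i.succ.succ) ^ 2 / (2 * ε ^ 2)))
  have hq : ∀ i, Measurable (q i) := fun i => Measurable.ennreal_ofReal (by fun_prop)
  have hk : Measurable fun g : EuclideanSpace ℝ (Fin (m + 2)) =>
      A.indicator (fun _ => (1:ℝ≥0∞)) (s⁻¹ • g) :=
    ((measurable_const (a := (1:ℝ≥0∞))).indicator hA).comp (measurable_const_smul _)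
  rw [← map_pi_eq_stdGaussian, lintegral_map hk (by fun_prop)]
  change ∫⁻ x : Fin (m + 1 + 1) → ℝ, A.indicator (fun _ => (1:ℝ≥0∞)) (s⁻¹ • toLp 2 x)
    ∂Measure.pi (fun _ => G1) ≤ _
  rw [lintegral_pi_succ G1 (f := fun x => A.indicator (fun _ => (1:ℝ≥0∞)) (s⁻¹ • toLp 2 x))
    (hk.comp (by fun_prop))]
  have hinner : ∀ u : ℝ, ∫⁻ y, A.indicator (fun _ => (1:ℝ≥0∞))
      (s⁻¹ • toLp 2 (Fin.cons u y : Fin (m + 2) → ℝ))
      ∂Measure.pi (fun _ => G1) ≤ ∏ i, ∫⁻ t, q i t ∂G1 := by
    intro u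
    rw [lintegral_pi_succ G1 (f := fun y : Fin (m + 1) → ℝ => A.indicator (fun _ => (1:ℝ≥0∞))
      (s⁻¹ • toLp 2 (Fin.cons u y : Fin (m + 2) → ℝ))) (hk.comp (by fun_prop))]
    refine le_trans (lintegral_mono (g := fun _ => ∏ i, ∫⁻ t, q i t ∂G1) fun u' => ?_) (by simp)
    simp only
    rw [← lintegral_pi_prod G1 q hq]
    refine lintegral_mono fun w => ?_
    simp only [Set.indicator_apply]
    split_ifs with hw
    · simp only [A, Set.mem_ofPred_eq, PiLp.smul_apply, Fin.cons_succ,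
        smul_eq_mul] at hw
      simp only [q]
      rw [← ENNReal.ofReal_prod_of_nonneg fun i _ => (Real.exp_pos _).le, ← Real.exp_sum,
        ← ENNReal.ofReal_one]
      refine ENNReal.ofReal_le_ofReal (Real.one_le_exp ?_)
      rw [Finset.sum_sub_distrib]
      have h1 : ∑ x, (m:ℝ) * (s⁻¹ * w x - o (Fin.succ (Fin.succ x))) ^ 2 / (2 * ε ^ 2)
          = (∑ x, (s⁻¹ * w x - o (Fin.succ (Fin.succ x))) ^ 2) * (m / (2 * ε ^ 2)) := by
        rw [Finset.sum_mul]
        exact Finset.sum_congr rfl fun x _ => by ring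
      have h2 : ∑ _x : Fin m, (1/2 : ℝ) = m / 2 := by simp; ring
      rw [sub_nonneg, h1, h2]
      calc _ ≤ ε ^ 2 * ((m:ℝ) / (2 * ε ^ 2)) := mul_le_mul_of_nonneg_right hw (by positivity)
        _ = _ := by field_simp
    · exact zero_le
  refine le_trans (lintegral_mono hinner) ?_
  rw [lintegral_const, measure_univ, mul_one]
  have hfac : ∀ i, ∫⁻ t, q i t ∂G1 ≤ ENNReal.ofReal (3 * ε) := by
    intro i
    set a : ℝ := s * o i.succ.succ
    set vv : ℝ := ((m:ℝ) + 2) / m * ε ^ 2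
    have hvv : 0 < vv := by positivity
    have key : ∀ t, ENNReal.ofReal (pdf1 t) * q i t
        ≤ ENNReal.ofReal (3 * ε) * gaussianPDF a vv.toNNReal t := by
      intro t
      simp only [gaussianPDF_def, gaussianPDFReal_def, q]
      rw [← ENNReal.ofReal_mul (pdf1_nonneg t), ← ENNReal.ofReal_mul (by positivity)]
      refine ENNReal.ofReal_le_ofReal ?_
      simp only [Real.coe_toNNReal _ hvv.le, pdf1]
      have he1 : Real.exp (-t ^ 2 / 2) ≤ 1 := Real.exp_le_one_iff.2 (by nlinarith)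
      have he2 : (m:ℝ) * (s⁻¹ * t - o i.succ.succ) ^ 2 / (2 * ε ^ 2)
          = (t - a) ^ 2 / (2 * vv) := by
        simp only [a, vv, ← hs2]
        field_simp
      rw [he2, sub_eq_add_neg, Real.exp_add, neg_div]
      set X := Real.exp (-((t - a) ^ 2 / (2 * vv)))
      have hX : 0 ≤ X := (Real.exp_pos _).le
      have hh : Real.exp (1/2) * √vv ≤ 3 * ε := by
        rw [Real.exp_half, ← Real.sqrt_mul (Real.exp_pos _).le, Real.sqrt_le_iff]
        refine ⟨by positivity, ?_⟩
        have h5 : ((m:ℝ) + 2) / m ≤ 2 := by rw [div_le_iff₀ (by positivity)]; linarith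
        have := Real.exp_one_lt_d9
        calc Real.exp 1 * vv ≤ Real.exp 1 * (2 * ε ^ 2) :=
              mul_le_mul_of_nonneg_left (mul_le_mul_of_nonneg_right h5 (sq_nonneg ε))
                (Real.exp_pos _).le
          _ ≤ _ := by nlinarith [sq_nonneg ε]
      have hsv : 0 < √vv := by positivity
      calc (√(2 * π))⁻¹ * Real.exp (-(t ^ 2 / 2)) * (Real.exp (1/2) * X)
          ≤ (√(2 * π))⁻¹ * 1 * (Real.exp (1/2) * X) := by
            gcongr
            simpa [neg_div] using he1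
        _ = Real.exp (1/2) * √vv * ((√(2 * π * vv))⁻¹ * X) := by
            rw [Real.sqrt_mul (by positivity) vv]; field_simp
        _ ≤ 3 * ε * ((√(2 * π * vv))⁻¹ * X) := by gcongr
        _ = _ := by simp [X, neg_div]
    rw [lintegral_G1 (hq i)]
    refine le_trans (lintegral_mono key) ?_
    rw [lintegral_const_mul' _ _ ENNReal.ofReal_ne_top,
      lintegral_gaussianPDF_eq_one a (by simpa using hvv), mul_one]
  refine le_trans (Finset.prod_le_prod' fun i _ => hfac i) ?_
  rw [Finset.prod_const, Finset.card_univ, Fintype.card_fin, ← ENNReal.ofReal_pow (by positivity)]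

end Vale.Agent.P309
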